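import Vale.Agent.P273.H973.Bounds

/-!
# P273, crew ASY1, row (R) (helper668): weighted bounds for the recursion

`H973.norm_fderiv_gfun_le` with a weight for every line of the table: line `k` has the weight
`a k` (values) and `a' k` (derivatives in the direction `v`); an entry `(k,l)` is either trivial near
the point or satisfies the bounds of line `k`, and then the weights of line `l` are at most `K` times
those of line `k`.  The derivative of the cut-off enters only through the product with `a k`.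
-/

open scoped ContDiff Topology
open Finset Function Filter

namespace Vale.Agent.P273.H668

open Vale.Agent.P273.H973

noncomputable section

variable {H : Type*} [NormedAddCommGroup H] [NormedSpace ℝ H]

/-- one line, values -/
theorem norm_stp_w {c : ℕ → ℝ} {ψ G : ℕ → H} {k : ℕ} {M A : ℝ} (hM : 0 ≤ M) (hA : 0 ≤ A)
    (h : ∀ l < k, (c l = 0 ∧ ψ l = 0) ∨ ((0 ≤ c l ∧ c l ≤ 1) ∧ ‖ψ l‖ ≤ A ∧ ‖G l‖ ≤ M)) :
    ‖stp c ψ G k‖ ≤ M + k * A := by
  induction k with
  | zero => simpa [stp] using hM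
  | succ k ih =>
    have h' := ih (fun l hl => h l (by omega))
    have hk0 : (0 : ℝ) ≤ k := Nat.cast_nonneg k
    rw [stp]
    rcases h k (by omega) with ⟨e1, e2⟩ | ⟨⟨h0, h1⟩, h2, h3⟩
    · rw [e1, e2]
      simp only [sub_zero, one_smul, zero_smul, sub_self, add_zero]
      refine h'.trans ?_
      push_cast
      nlinarith
    · calc ‖(1 - c k) • stp c ψ G k + (c k • G k - ψ k)‖
          ≤ ‖(1 - c k) • stp c ψ G k‖ + (‖c k • G k‖ + ‖ψ k‖) :=
            (norm_add_le _ _).trans (add_le_add le_rfl (norm_sub_le _ _))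
        _ ≤ (1 - c k) * (M + k * A) + (c k * M + A) := by
            rw [norm_smul, norm_smul, Real.norm_of_nonneg (by linarith), Real.norm_of_nonneg h0]
            have e3 : (1 - c k) * ‖stp c ψ G k‖ ≤ (1 - c k) * (M + k * A) :=
              mul_le_mul_of_nonneg_left h' (by linarith)
            have e4 : c k * ‖G k‖ ≤ c k * M := mul_le_mul_of_nonneg_left h3 h0
            linarith
        _ ≤ M + ((k + 1 : ℕ) : ℝ) * A := by
            push_cast
            have : 0 ≤ c k * (k * A) := by positivity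
            nlinarith

/-- one line, derivatives -/
theorem norm_dstp_w {c c' : ℕ → ℝ} {ψ ψ' G G' : ℕ → H} {k : ℕ} {M' P A' : ℝ} (hM' : 0 ≤ M')
    (hP : 0 ≤ P) (hA' : 0 ≤ A')
    (h : ∀ l < k, (c l = 0 ∧ c' l = 0 ∧ ψ' l = 0) ∨
      ((0 ≤ c l ∧ c l ≤ 1) ∧ |c' l| * ‖stp c ψ G l‖ ≤ P ∧ |c' l| * ‖G l‖ ≤ P ∧ ‖ψ' l‖ ≤ A' ∧
        ‖G' l‖ ≤ M')) :
    ‖dstp c c' ψ ψ' G G' k‖ ≤ M' + k * (2 * P + A') := by
  induction k with
  | zero => simpa [dstp] using hM'
  | succ k ih =>
    have h' := ih (fun l hl => h l (by omega))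
    have hk0 : (0 : ℝ) ≤ k := Nat.cast_nonneg k
    rw [dstp]
    rcases h k (by omega) with ⟨e1, e2, e3⟩ | ⟨⟨h0, h1⟩, h2, h3, h4, h5⟩
    · rw [e1, e2, e3]
      simp only [sub_zero, one_smul, zero_smul, add_zero]
      refine h'.trans ?_
      push_cast
      nlinarith
    · calc ‖(1 - c k) • dstp c c' ψ ψ' G G' k - c' k • stp c ψ G k +
            (c k • G' k + c' k • G k - ψ' k)‖
          ≤ (‖(1 - c k) • dstp c c' ψ ψ' G G' k‖ + ‖c' k • stp c ψ G k‖) +
            ((‖c k • G' k‖ + ‖c' k • G k‖) + ‖ψ' k‖) :=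
            (norm_add_le _ _).trans (add_le_add (norm_sub_le _ _) ((norm_sub_le _ _).trans
              (add_le_add (norm_add_le _ _) le_rfl)))
        _ ≤ ((1 - c k) * (M' + k * (2 * P + A')) + P) + ((c k * M' + P) + A') := by
            rw [norm_smul, norm_smul, norm_smul, norm_smul, Real.norm_of_nonneg (by linarith),
              Real.norm_of_nonneg h0, Real.norm_eq_abs]
            have e1 : (1 - c k) * ‖dstp c c' ψ ψ' G G' k‖ ≤ (1 - c k) * (M' + k * (2 * P + A')) :=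
              mul_le_mul_of_nonneg_left h' (by linarith)
            have e2 : c k * ‖G' k‖ ≤ c k * M' := mul_le_mul_of_nonneg_left h5 h0
            linarith
        _ ≤ M' + ((k + 1 : ℕ) : ℝ) * (2 * P + A') := by
            push_cast
            have : 0 ≤ c k * (k * (2 * P + A')) := by positivity
            nlinarith

/-- the constant of the values -/
def cV (K : ℝ) (k : ℕ) : ℝ := (k : ℝ) ^ 2 * K ^ k

theorem cV_nonneg {K : ℝ} (hK : 1 ≤ K) (k : ℕ) : 0 ≤ cV K k := by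
  unfold cV; positivity

theorem cV_mono {K : ℝ} (hK : 1 ≤ K) {k l : ℕ} (h : k ≤ l) : cV K k ≤ cV K l := by
  unfold cV
  gcongr

theorem cV_succ {K : ℝ} (hK : 1 ≤ K) (k : ℕ) : K * cV K k + ((k + 1 : ℕ) : ℝ) ≤ cV K (k + 1) := by
  unfold cV
  have h1 : 1 ≤ K ^ (k + 1) := one_le_pow₀ hK
  have hk : (0 : ℝ) ≤ k := Nat.cast_nonneg k
  push_cast
  have e1 : K * ((k : ℝ) ^ 2 * K ^ k) = (k : ℝ) ^ 2 * K ^ (k + 1) := by ring
  have e2 : ((k : ℝ) + 1) ^ 2 * K ^ (k + 1) = (k : ℝ) ^ 2 * K ^ (k + 1) +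
    (2 * k + 1) * K ^ (k + 1) := by ring
  rw [e1, e2]
  nlinarith

variable {X : Type*} [NormedAddCommGroup X] [NormedSpace ℝ X]

/-- the condition on one entry of the table -/
def Ent (c : X → ℝ) (ψ : X → H) (x v : X) (K a a' b b' : ℝ) : Prop :=
  ((∀ᶠ z in 𝓝 x, c z = 0) ∧ ∀ᶠ z in 𝓝 x, ψ z = 0) ∨
  ((DifferentiableAt ℝ c x ∧ DifferentiableAt ℝ ψ x) ∧ (0 ≤ c x ∧ c x ≤ 1) ∧ ‖ψ x‖ ≤ a ∧
    |fderiv ℝ c x v| * a ≤ a' ∧ ‖fderiv ℝ ψ x v‖ ≤ a' ∧ b ≤ K * a ∧ b' ≤ K * a')

theorem diff_zero {F : Type*} [NormedAddCommGroup F] [NormedSpace ℝ F] {f : X → F} {x : X}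
    (h : ∀ᶠ z in 𝓝 x, f z = 0) : DifferentiableAt ℝ f x ∧ fderiv ℝ f x = 0 := by
  have h2 : HasFDerivAt f (0 : X →L[ℝ] F) x := (hasFDerivAt_const (0 : F) x).congr_of_eventuallyEq h
  exact ⟨h2.differentiableAt, h2.fderiv⟩

/-- the condition on one entry of the table, at the point only -/
def EntP (c : X → ℝ) (ψ : X → H) (x v : X) (K a a' b b' : ℝ) : Prop :=
  (DifferentiableAt ℝ c x ∧ DifferentiableAt ℝ ψ x) ∧
  ((c x = 0 ∧ fderiv ℝ c x v = 0 ∧ ψ x = 0 ∧ fderiv ℝ ψ x v = 0) ∨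
    ((0 ≤ c x ∧ c x ≤ 1) ∧ ‖ψ x‖ ≤ a ∧
      |fderiv ℝ c x v| * a ≤ a' ∧ ‖fderiv ℝ ψ x v‖ ≤ a' ∧ b ≤ K * a ∧ b' ≤ K * a'))

theorem Ent.toP {c : X → ℝ} {ψ : X → H} {x v : X} {K a a' b b' : ℝ}
    (h : Ent c ψ x v K a a' b b') : EntP c ψ x v K a a' b b' := by
  rcases h with ⟨h1, h2⟩ | h
  · refine ⟨⟨(diff_zero h1).1, (diff_zero h2).1⟩, Or.inl ⟨h1.self_of_nhds, ?_, h2.self_of_nhds, ?_⟩⟩
    · rw [(diff_zero h1).2]; rfl
    · rw [(diff_zero h2).2]; rfl
  · exact ⟨h.1, Or.inr h.2⟩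

/-- weighted values over ℕ -/
theorem norm_gk_w {c : ℕ → ℕ → X → ℝ} {ψ : ℕ → ℕ → X → H} {n : ℕ} {x v : X} {a a' : ℕ → ℝ} {K : ℝ}
    (ha : ∀ k, 0 ≤ a k) (hK : 1 ≤ K)
    (h : ∀ k < n, (∀ᶠ z in 𝓝 x, gk (fun k l => c k l z) (fun k l => ψ k l z) k = 0) ∨
      ∀ l < k, EntP (c k l) (ψ k l) x v K (a k) (a' k) (a l) (a' l)) :
    ∀ k < n, ‖gk (fun k l => c k l x) (fun k l => ψ k l x) k‖ ≤ cV K k * a k := by
  intro k
  induction k using Nat.strong_induction_on with
  | _ k ih =>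
    intro hk
    rcases h k hk with h0 | h1
    · rw [h0.self_of_nhds, norm_zero]
      exact mul_nonneg (cV_nonneg hK k) (ha k)
    · rcases k with _ | k
      · simp [gk_eq, stp, cV]
      rw [gk_eq]
      have h3 := norm_stp_w (c := fun l => c (k + 1) l x) (ψ := fun l => ψ (k + 1) l x)
        (G := gk (fun k l => c k l x) (fun k l => ψ k l x)) (k := k + 1)
        (M := K * cV K k * a (k + 1)) (A := a (k + 1))
        (mul_nonneg (mul_nonneg (by linarith) (cV_nonneg hK k)) (ha _)) (ha _) (by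
          intro l hl
          rcases (h1 l hl).2 with ⟨e1, _, e2, _⟩ | ⟨e1, e2, _, _, e3, _⟩
          · exact Or.inl ⟨e1, e2⟩
          · refine Or.inr ⟨e1, e2, (ih l hl (by omega)).trans ?_⟩
            calc cV K l * a l ≤ cV K k * (K * a (k + 1)) :=
                  mul_le_mul (cV_mono hK (by omega)) e3 (ha l) (cV_nonneg hK k)
              _ = K * cV K k * a (k + 1) := by ring)
      refine h3.trans ?_
      have := mul_le_mul_of_nonneg_right (cV_succ hK k) (ha (k + 1))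
      rw [add_mul] at this
      exact this

/-- weighted derivatives over ℕ -/
theorem norm_fderiv_gk_w {c : ℕ → ℕ → X → ℝ} {ψ : ℕ → ℕ → X → H} {n : ℕ} {x v : X}
    {a a' : ℕ → ℝ} {K : ℝ} (ha : ∀ k, 0 ≤ a k) (ha' : ∀ k, 0 ≤ a' k) (hK : 1 ≤ K)
    (h : ∀ k < n, (∀ᶠ z in 𝓝 x, gk (fun k l => c k l z) (fun k l => ψ k l z) k = 0) ∨
      ∀ l < k, EntP (c k l) (ψ k l) x v K (a k) (a' k) (a l) (a' l)) :
    ∀ k < n, DifferentiableAt ℝ (fun z => gk (fun k l => c k l z) (fun k l => ψ k l z) k) x ∧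
      ‖fderiv ℝ (fun z => gk (fun k l => c k l z) (fun k l => ψ k l z) k) x v‖ ≤
        cV K k * (2 * cV K n + 1) * a' k := by
  have hval := norm_gk_w ha hK h
  have hV : 0 ≤ cV K n := cV_nonneg hK n
  intro k
  induction k using Nat.strong_induction_on with
  | _ k ih =>
    intro hk
    rcases h k hk with h0 | h1
    · obtain ⟨e1, e2⟩ := diff_zero h0
      refine ⟨e1, ?_⟩
      rw [e2]
      simp only [_root_.zero_apply, norm_zero]
      exact mul_nonneg (mul_nonneg (cV_nonneg hK k) (by linarith)) (ha' k)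
    · have h3 := hasFDerivAt_stp (c := c k) (ψ := ψ k)
        (G := fun l z => gk (fun k l => c k l z) (fun k l => ψ k l z) l) (k := k) (x := x)
        (fun l hl => (h1 l hl).1.1) (fun l hl => (h1 l hl).1.2)
        (fun l hl => (ih l hl (by omega)).1)
      have h4 : (fun z => gk (fun k l => c k l z) (fun k l => ψ k l z) k) = fun z =>
          stp (fun l => c k l z) (fun l => ψ k l z)
            (fun l => gk (fun k l => c k l z) (fun k l => ψ k l z) l) k := by
        funext z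
        exact gk_eq _ _ _
      rw [h4]
      refine ⟨h3.1, ?_⟩
      rw [h3.2 v]
      rcases k with _ | k
      · simp [dstp, cV]
      have hS : ∀ l < k + 1, ‖stp (fun l => c (k + 1) l x) (fun l => ψ (k + 1) l x)
          (fun l => gk (fun k l => c k l x) (fun k l => ψ k l x) l) l‖ ≤ cV K n * a (k + 1) := by
        intro l hl
        refine (norm_stp_w (M := K * cV K k * a (k + 1)) (A := a (k + 1))
          (mul_nonneg (mul_nonneg (by linarith) (cV_nonneg hK k)) (ha _)) (ha _) (by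
          intro j hj
          rcases (h1 j (by omega)).2 with ⟨e1, _, e2, _⟩ | ⟨e1, e2, _, _, e3, _⟩
          · exact Or.inl ⟨e1, e2⟩
          · refine Or.inr ⟨e1, e2, (hval j (by omega)).trans ?_⟩
            calc cV K j * a j ≤ cV K k * (K * a (k + 1)) :=
                  mul_le_mul (cV_mono hK (by omega)) e3 (ha j) (cV_nonneg hK k)
              _ = K * cV K k * a (k + 1) := by ring)).trans ?_
        have e5 : (l : ℝ) ≤ ((k + 1 : ℕ) : ℝ) := by exact_mod_cast hl.le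
        have e6 := mul_le_mul_of_nonneg_right (cV_succ hK k) (ha (k + 1))
        have e7 := mul_le_mul_of_nonneg_right (cV_mono hK (show k + 1 ≤ n from hk.le)) (ha (k + 1))
        have e8 := mul_le_mul_of_nonneg_right e5 (ha (k + 1))
        rw [add_mul] at e6
        linarith
      have hD := norm_dstp_w (c := fun l => c (k + 1) l x)
        (c' := fun l => fderiv ℝ (c (k + 1) l) x v) (ψ := fun l => ψ (k + 1) l x)
        (ψ' := fun l => fderiv ℝ (ψ (k + 1) l) x v)
        (G := fun l => gk (fun k l => c k l x) (fun k l => ψ k l x) l)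
        (G' := fun l => fderiv ℝ (fun z => gk (fun k l => c k l z) (fun k l => ψ k l z) l) x v)
        (k := k + 1) (M' := K * (cV K k * (2 * cV K n + 1)) * a' (k + 1))
        (P := cV K n * a' (k + 1)) (A' := a' (k + 1))
        (mul_nonneg (mul_nonneg (by linarith) (mul_nonneg (cV_nonneg hK k) (by linarith))) (ha' _))
        (mul_nonneg hV (ha' _)) (ha' _) (by
          intro l hl
          rcases (h1 l hl).2 with ⟨e1, e2, _, e3⟩ | ⟨e1, e2, e3, e4, e5, e6⟩
          · exact Or.inl ⟨e1, e2, e3⟩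
          · refine Or.inr ⟨e1, ?_, ?_, e4, ?_⟩
            · calc |fderiv ℝ (c (k + 1) l) x v| * _
                  ≤ |fderiv ℝ (c (k + 1) l) x v| * (cV K n * a (k + 1)) :=
                    mul_le_mul_of_nonneg_left (hS l hl) (abs_nonneg _)
                _ = cV K n * (|fderiv ℝ (c (k + 1) l) x v| * a (k + 1)) := by ring
                _ ≤ cV K n * a' (k + 1) := mul_le_mul_of_nonneg_left e3 hV
            · have f1 : ‖gk (fun k l => c k l x) (fun k l => ψ k l x) l‖ ≤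
                  cV K n * a (k + 1) := by
                refine (hval l (by omega)).trans ?_
                calc cV K l * a l ≤ cV K k * (K * a (k + 1)) :=
                      mul_le_mul (cV_mono hK (by omega)) e5 (ha l) (cV_nonneg hK k)
                  _ = (K * cV K k) * a (k + 1) := by ring
                  _ ≤ cV K n * a (k + 1) := by
                      refine mul_le_mul_of_nonneg_right ?_ (ha _)
                      have f2 := cV_succ hK k
                      have f3 := cV_mono hK (show k + 1 ≤ n from hk.le)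
                      have f4 : (0 : ℝ) ≤ ((k + 1 : ℕ) : ℝ) := Nat.cast_nonneg _
                      linarith
              calc |fderiv ℝ (c (k + 1) l) x v| * _
                  ≤ |fderiv ℝ (c (k + 1) l) x v| * (cV K n * a (k + 1)) :=
                    mul_le_mul_of_nonneg_left f1 (abs_nonneg _)
                _ = cV K n * (|fderiv ℝ (c (k + 1) l) x v| * a (k + 1)) := by ring
                _ ≤ cV K n * a' (k + 1) := mul_le_mul_of_nonneg_left e3 hV
            · refine (ih l hl (by omega)).2.trans ?_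
              calc cV K l * (2 * cV K n + 1) * a' l
                  ≤ (cV K k * (2 * cV K n + 1)) * (K * a' (k + 1)) :=
                    mul_le_mul (mul_le_mul_of_nonneg_right (cV_mono hK (by omega)) (by linarith))
                      e6 (ha' l) (mul_nonneg (cV_nonneg hK k) (by linarith))
                _ = K * (cV K k * (2 * cV K n + 1)) * a' (k + 1) := by ring)
      refine hD.trans ?_
      have g1 := mul_le_mul_of_nonneg_right (mul_le_mul_of_nonneg_right (cV_succ hK k)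
        (show 0 ≤ 2 * cV K n + 1 by linarith)) (ha' (k + 1))
      refine le_trans (le_of_eq ?_) g1
      ring

/-- **ROW (R), conditions at the point only.** -/
theorem norm_fderiv_gfun_wp {n : ℕ} {c : Fin n → Fin n → X → ℝ} {ψ : Fin n → Fin n → X → H}
    {x v : X} {a a' : Fin n → ℝ} {K : ℝ} (ha : ∀ k, 0 ≤ a k) (ha' : ∀ k, 0 ≤ a' k) (hK : 1 ≤ K)
    (h : ∀ k, (∀ᶠ z in 𝓝 x, gfun c ψ k z = 0) ∨
      ∀ l, l < k → EntP (c k l) (ψ k l) x v K (a k) (a' k) (a l) (a' l)) (k : Fin n) :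
    DifferentiableAt ℝ (gfun c ψ k) x ∧ ‖gfun c ψ k x‖ ≤ ((n : ℝ) ^ 2 * K ^ n) * a k ∧
      ‖fderiv ℝ (gfun c ψ k) x v‖ ≤
        ((n : ℝ) ^ 2 * K ^ n) * (2 * ((n : ℝ) ^ 2 * K ^ n) + 1) * a' k := by
  have hfun : ∀ k : Fin n, gfun c ψ k = fun z => gk (fun k l => ex (fun _ => 0) c k l z)
      (fun k l => ex (fun _ => 0) ψ k l z) k := fun k => by
    funext z
    exact gfun_eq _ _ _ _
  set b : ℕ → ℝ := fun k => if h : k < n then a ⟨k, h⟩ else 0 with hb
  set b' : ℕ → ℝ := fun k => if h : k < n then a' ⟨k, h⟩ else 0 with hb'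
  have hb1 : ∀ {k : ℕ} (hk : k < n), b k = a ⟨k, hk⟩ := fun {k} hk => by simp [hb, hk]
  have hb2 : ∀ {k : ℕ} (hk : k < n), b' k = a' ⟨k, hk⟩ := fun {k} hk => by simp [hb', hk]
  have hb0 : ∀ k, 0 ≤ b k := fun k => by
    by_cases hk : k < n
    · rw [hb1 hk]; exact ha _
    · simp [hb, hk]
  have hb0' : ∀ k, 0 ≤ b' k := fun k => by
    by_cases hk : k < n
    · rw [hb2 hk]; exact ha' _
    · simp [hb', hk]
  have h' : ∀ k < n, (∀ᶠ z in 𝓝 x, gk (fun k l => ex (fun _ => (0 : ℝ)) c k l z)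
      (fun k l => ex (fun _ => (0 : H)) ψ k l z) k = 0) ∨
      ∀ l < k, EntP (ex (fun _ => (0 : ℝ)) c k l) (ex (fun _ => (0 : H)) ψ k l) x v K (b k) (b' k)
        (b l) (b' l) := by
    intro k hk
    rcases h ⟨k, hk⟩ with h0 | h1
    · left
      rw [hfun] at h0
      exact h0
    · right
      intro l hl
      rw [ex_apply _ _ hk (lt_trans hl hk), ex_apply _ _ hk (lt_trans hl hk), hb1 hk, hb2 hk,
        hb1 (lt_trans hl hk), hb2 (lt_trans hl hk)]
      exact h1 _ hl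
  have h1 := norm_fderiv_gk_w (c := ex (fun _ => (0 : ℝ)) c) (ψ := ex (fun _ => (0 : H)) ψ)
    (n := n) (x := x) (v := v) hb0 hb0' hK h' k k.2
  have h2 := norm_gk_w (c := ex (fun _ => (0 : ℝ)) c) (ψ := ex (fun _ => (0 : H)) ψ)
    (n := n) (x := x) (v := v) hb0 hK h' k k.2
  rw [hb2 k.2] at h1
  rw [hb1 k.2] at h2
  have hkn : cV K k ≤ cV K n := cV_mono hK k.2.le
  have hn0 : 0 ≤ cV K n := cV_nonneg hK n
  rw [hfun]
  refine ⟨h1.1, h2.trans ?_, h1.2.trans ?_⟩
  · exact mul_le_mul_of_nonneg_right hkn (ha _)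
  · refine mul_le_mul_of_nonneg_right (mul_le_mul_of_nonneg_right hkn ?_) (ha' _)
    linarith

/-- **ROW (R).** Weighted bounds for the solution of the recursion: if every line is trivial near
the point or all its entries satisfy `Ent` with the weights `a k`, `a' k`, then
`‖g_k‖ ≤ C a_k` and `‖D g_k(v)‖ ≤ C (2 C + 1) a'_k` with `C = n² Kⁿ`. -/
theorem norm_fderiv_gfun_w {n : ℕ} {c : Fin n → Fin n → X → ℝ} {ψ : Fin n → Fin n → X → H}
    {x v : X} {a a' : Fin n → ℝ} {K : ℝ} (ha : ∀ k, 0 ≤ a k) (ha' : ∀ k, 0 ≤ a' k) (hK : 1 ≤ K)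
    (h : ∀ k, (∀ᶠ z in 𝓝 x, gfun c ψ k z = 0) ∨
      ∀ l, l < k → Ent (c k l) (ψ k l) x v K (a k) (a' k) (a l) (a' l)) (k : Fin n) :
    DifferentiableAt ℝ (gfun c ψ k) x ∧ ‖gfun c ψ k x‖ ≤ ((n : ℝ) ^ 2 * K ^ n) * a k ∧
      ‖fderiv ℝ (gfun c ψ k) x v‖ ≤
        ((n : ℝ) ^ 2 * K ^ n) * (2 * ((n : ℝ) ^ 2 * K ^ n) + 1) * a' k :=
  norm_fderiv_gfun_wp ha ha' hK (fun k => (h k).imp_right fun h1 l hl => (h1 l hl).toP) k

/-- the same for the form of the mark `k`: `θ_k(v) = η_k(v) + D g_k(v)` -/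
theorem norm_theta_w {n : ℕ} {η : Fin n → X → X →L[ℝ] H} {c : Fin n → Fin n → X → ℝ}
    {ψ : Fin n → Fin n → X → H}
    {x v : X} {a a' : Fin n → ℝ} {K : ℝ} (ha : ∀ k, 0 ≤ a k) (ha' : ∀ k, 0 ≤ a' k) (hK : 1 ≤ K)
    (h : ∀ k, (∀ᶠ z in 𝓝 x, gfun c ψ k z = 0) ∨
      ∀ l, l < k → Ent (c k l) (ψ k l) x v K (a k) (a' k) (a l) (a' l)) (k : Fin n) {B : ℝ}
    (hη : ‖η k x v‖ ≤ B * a' k) :
    ‖theta η c ψ k x v‖ ≤
      (B + ((n : ℝ) ^ 2 * K ^ n) * (2 * ((n : ℝ) ^ 2 * K ^ n) + 1)) * a' k := by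
  have h1 := (norm_fderiv_gfun_w ha ha' hK h k).2.2
  have h2 : theta η c ψ k x v = η k x v + fderiv ℝ (gfun c ψ k) x v := by
    simp [theta]
  rw [h2, add_mul]
  exact (norm_add_le _ _).trans (add_le_add hη h1)

end

end Vale.Agent.P273.H668
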