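import Vale.Agent.P273.H578.Bridge
import Vale.Agent.P273.H668.RecW

/-!
# P273, crew ASY1 (helper668): the weighted bound of the recursion along a map

`gfunT_bound_w`, `Brd.gX_bound_w`: helper578's `gfunT_bound`, `Brd.gX_bound` with one weight for every
mark, conditions for near pairs of marks only; `Brd.leg_bound_w`: the leg of the gauge.
-/

open Set Filter Topology Metric
open scoped ContDiff
open Vale.Agent.P273.H973 Vale.Agent.P273.H681 Vale.Agent.P273.H95 Vale.Agent.P273.H578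

noncomputable section

namespace Vale.Agent.P273.H668

/-! ### one entry of the table -/

section entry

variable {n : ℕ} {V : Type*} [NormedAddCommGroup V] [NormedSpace ℝ V] [CompleteSpace V]
  {E : Type*} [NormedAddCommGroup E] [NormedSpace ℝ E] {b : E → Fin 6 → ℂ}
  {P : E → Fin n → ℂ × ℂ} {a : Fin n → Prop} {e : E} {W : Set (Fin 6 → ℂ)}
  {η : (Fin 6 → ℂ) → ℂ → ℂ → ((Fin 6 → ℂ) × ℂ →L[ℝ] V)}

/-- the entry of a pair of marks which are not near -/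
theorem entry_far (hη : SCl W η) (hW : IsOpen W) (hbW : b e ∈ W)
    (hb : ContDiffAt ℝ ∞ b e) (hP : ∀ k, a k → ContDiffAt ℝ ∞ (P · k) e)
    (hPt : ∀ k, a k → ∀ᶠ e' in 𝓝 e, Pt (b e') (P e' k)) {k l : Fin n} (v : E)
    (h : ¬ (a k ∧ a l ∧ Nr (rad k) (b e) (P e k) (P e l))) :
    chiT a (b e) (P e) k l = 0 ∧ fderiv ℝ (fun e => chiT a (b e) (P e) k l) e v = 0 ∧
      psiT η a (b e) (P e) k l = 0 ∧ fderiv ℝ (fun e => psiT η a (b e) (P e) k l) e v = 0 := by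
  unfold psiT chiT
  by_cases hkl : a k ∧ a l
  · have hN : ¬ Nr (rad k) (b e) (P e k) (P e l) := fun h1 => h ⟨hkl.1, hkl.2, h1⟩
    have hPk := (hPt k hkl.1).self_of_nhds
    have hPl := (hPt l hkl.2).self_of_nhds
    have h1 : cut (rad k) (b e) (P e k) (P e l) = 0 := by
      by_contra h1
      exact hN (nr_of_cut (rad_pos _) hPk.off h1)
    have h2 := fderiv_cut_far hb (hP k hkl.1) (hP l hkl.2) hPk hPl (rad_pos k) (small_rad2 _) hN
    simp only [if_pos hkl]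
    refine ⟨h1, ?_, ?_, ?_⟩
    · rw [h2]; rfl
    · rw [h1, zero_smul]
    · rw [(hasFDerivAt_psi hη hW hbW hb (hP k hkl.1) (hP l hkl.2) (hPt k hkl.1) hPl (rad_pos k)
        (small_rad2 _)).fderiv, h1, h2]
      simp
  · simp only [if_neg hkl, zero_smul]
    refine ⟨by trivial, ?_, by trivial, ?_⟩ <;> · rw [fderiv_const_apply]; rfl

/-- the entry of a pair of near marks -/
theorem entry_near (hη : SCl W η) (hW : IsOpen W) (hbW : b e ∈ W)
    (hb : ContDiffAt ℝ ∞ b e) (hP : ∀ k, a k → ContDiffAt ℝ ∞ (P · k) e)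
    (hPt : ∀ k, a k → ∀ᶠ e' in 𝓝 e, Pt (b e') (P e' k)) {k l : Fin n} {v : E} {A A' : ℝ}
    (hk : a k) (hl : a l) (hA : ‖del η (b e) (P e k) (P e l)‖ ≤ A)
    (hC : |fderiv ℝ (fun e => chiT a (b e) (P e) k l) e v| * A ≤ A')
    (hB : ‖pb η b (P · k) e v - pb η b (P · l) e v‖ ≤ A') :
    ‖psiT η a (b e) (P e) k l‖ ≤ A ∧
      ‖fderiv ℝ (fun e => psiT η a (b e) (P e) k l) e v‖ ≤ 2 * A' := by
  have hPk := (hPt k hk).self_of_nhds
  have hPl := (hPt l hl).self_of_nhds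
  unfold psiT chiT
  unfold chiT at hC
  simp only [if_pos (show a k ∧ a l from ⟨hk, hl⟩)] at hC ⊢
  refine ⟨?_, ?_⟩
  · rw [norm_smul, Real.norm_of_nonneg (cut_nonneg _ _ _ _)]
    exact (mul_le_of_le_one_left (norm_nonneg _) (cut_le_one _ _ _ _)).trans hA
  · rw [(hasFDerivAt_psi hη hW hbW hb (hP k hk) (hP l hl) (hPt k hk) hPl (rad_pos k)
      (small_rad2 _)).fderiv]
    simp only [add_apply, smul_apply, sub_apply, ContinuousLinearMap.smulRight_apply]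
    rw [two_mul]
    refine (norm_add_le _ _).trans (add_le_add ?_ ?_)
    · rw [norm_smul, Real.norm_of_nonneg (cut_nonneg _ _ _ _)]
      exact (mul_le_of_le_one_left (norm_nonneg _) (cut_le_one _ _ _ _)).trans hB
    · rw [norm_smul, Real.norm_eq_abs]
      exact (mul_le_mul_of_nonneg_left hA (abs_nonneg _)).trans hC

/-- **the weighted bound of the recursion in one direction**, from data of near marks only -/
theorem gfunT_bound_w (hη : SCl W η) (hW : IsOpen W) (hbW : b e ∈ W)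
    (hb : ContDiffAt ℝ ∞ b e) (hP : ∀ k, a k → ContDiffAt ℝ ∞ (P · k) e)
    (hPt : ∀ k, a k → ∀ᶠ e' in 𝓝 e, Pt (b e') (P e' k)) {v : E} {w w' : Fin n → ℝ} {K : ℝ}
    (hw : ∀ k, 0 ≤ w k) (hw' : ∀ k, 0 ≤ w' k) (hK : 1 ≤ K)
    (h : ∀ k, (∀ᶠ z in 𝓝 e, gfun (fun k l e => chiT a (b e) (P e) k l)
        (fun k l e => psiT η a (b e) (P e) k l) k z = 0) ∨ ∀ l, l < k → a k → a l →
      Nr (rad k) (b e) (P e k) (P e l) → ‖del η (b e) (P e k) (P e l)‖ ≤ w k ∧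
        |fderiv ℝ (fun e => chiT a (b e) (P e) k l) e v| * w k ≤ w' k ∧
        ‖pb η b (P · k) e v - pb η b (P · l) e v‖ ≤ w' k ∧
        w l ≤ K * w k ∧ w' l ≤ K * w' k) (k : Fin n) :
    DifferentiableAt ℝ (gfun (fun k l e => chiT a (b e) (P e) k l)
        (fun k l e => psiT η a (b e) (P e) k l) k) e ∧
      ‖gfun (fun k l e => chiT a (b e) (P e) k l)
        (fun k l e => psiT η a (b e) (P e) k l) k e‖ ≤ ((n : ℝ) ^ 2 * K ^ n) * w k ∧
      ‖fderiv ℝ (gfun (fun k l e => chiT a (b e) (P e) k l)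
        (fun k l e => psiT η a (b e) (P e) k l) k) e v‖ ≤
        ((n : ℝ) ^ 2 * K ^ n) * (2 * ((n : ℝ) ^ 2 * K ^ n) + 1) * (2 * w' k) := by
  have hPt' : ∀ k, a k → Pt (b e) (P e k) := fun k hk => (hPt k hk).self_of_nhds
  refine norm_fderiv_gfun_wp (a' := fun k => 2 * w' k) hw
    (fun k => mul_nonneg zero_le_two (hw' k)) hK (fun k => ?_) k
  rcases h k with h0 | h1
  · exact Or.inl h0
  right
  intro l hlk
  refine ⟨⟨(contDiffAt_chiT hb hP hPt' k l).differentiableAt (by simp),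
    (contDiffAt_psiT hη hW hbW hb hP hPt k l).differentiableAt (by simp)⟩, ?_⟩
  by_cases hN : a k ∧ a l ∧ Nr (rad k) (b e) (P e k) (P e l)
  · right
    obtain ⟨e1, e2, e3, e4, e5⟩ := h1 l hlk hN.1 hN.2.1 hN.2.2
    obtain ⟨f1, f2⟩ := entry_near hη hW hbW hb hP hPt hN.1 hN.2.1 e1 e2 e3
    have h3 := hw' k
    refine ⟨⟨chiT_nonneg _ _ _ _ _, chiT_le_one _ _ _ _ _⟩, f1, by linarith, f2, e4, ?_⟩
    linarith
  · exact Or.inl (entry_far hη hW hbW hb hP hPt v hN)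

end entry

/-! ### along a map to (roots, marks) -/

variable {X : Type*} [NormedAddCommGroup X] [NormedSpace ℝ X]
  {S : L → Bool} {t : Bool} {φ : X → E} {σ : X → L → ℂ} {p : X}

/-- the constant of the weighted bound -/
def CW (K : ℝ) : ℝ := 2 * ((49 * K ^ 7) * (2 * (49 * K ^ 7) + 1))

theorem CW_nonneg {K : ℝ} (hK : 1 ≤ K) : 0 ≤ CW K := by
  have : 0 ≤ K := by linarith
  unfold CW
  positivity

/-- **the weighted bound of the recursion in one direction** -/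
theorem gX_bound_w (h : Brd S φ σ p) (O : One) {ξ : Fin 6 → ℝ} (hξ : IsCl ξ) {v : X}
    {w w' : Fin 7 → ℝ} {K : ℝ} (hw : ∀ k, 0 ≤ w k) (hw' : ∀ k, 0 ≤ w' k) (hK : 1 ≤ K)
    (hd : ∀ k, (∀ᶠ z in 𝓝 p, gfun (cX S t φ σ p) (pX O ξ S t φ σ p) k z = 0) ∨
      ∀ l, l < k → fin S t (φ p) k → fin S t (φ p) l →
        Nr (rad k) (φ p).1 (PX S t φ σ p k) (PX S t φ σ p l) →
        |del (etx O ξ) (φ p).1 (PX S t φ σ p k) (PX S t φ σ p l)| ≤ w k ∧
        |fderiv ℝ (cX S t φ σ p k l) p v| * w k ≤ w' k ∧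
        |pb (etx O ξ) (fun q => (φ q).1) (fun q => PX S t φ σ q k) p v -
          pb (etx O ξ) (fun q => (φ q).1) (fun q => PX S t φ σ q l) p v| ≤ w' k ∧
        w l ≤ K * w k ∧ w' l ≤ K * w' k) (k : Fin 7) :
    |gfun (cX S t φ σ p) (pX O ξ S t φ σ p) k p| ≤ 49 * K ^ 7 * w k ∧
      |fderiv ℝ (gfun (cX S t φ σ p) (pX O ξ S t φ σ p) k) p v| ≤ CW K * w' k := by
  have h1 := gfunT_bound_w (a := fin S t (φ p)) (b := fun q => (φ q).1) (P := PX S t φ σ) (n := 7)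
    (scl_etx O hξ) H401.isOpen_XX h.mem h.contDiffAt_b (fun _ hm => h.contDiffAt_PX hm)
    (fun _ hm => h.pt hm) (v := v) hw hw' hK hd k
  obtain ⟨-, h2, h3⟩ := h1
  rw [Real.norm_eq_abs] at h2 h3
  refine ⟨?_, ?_⟩
  · refine h2.trans (le_of_eq ?_)
    norm_num
  · refine h3.trans (le_of_eq ?_)
    unfold CW
    norm_num
    ring

/-- **the weighted bound of the leg of the gauge in one direction** -/
theorem leg_bound_w (h : Brd S φ σ p) (O : One) {ξ : Fin 6 → ℝ} (hξ : IsCl ξ) {v : X}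
    {w w' : Fin 7 → ℝ} {K : ℝ} (hw : ∀ k, 0 ≤ w k) (hw' : ∀ k, 0 ≤ w' k) (hK : 1 ≤ K)
    (hd : ∀ k, (∀ᶠ z in 𝓝 p, gfun (cX S t φ σ p) (pX O ξ S t φ σ p) k z = 0) ∨
      ∀ l, l < k → fin S t (φ p) k → fin S t (φ p) l →
        Nr (rad k) (φ p).1 (PX S t φ σ p k) (PX S t φ σ p l) →
        |del (etx O ξ) (φ p).1 (PX S t φ σ p k) (PX S t φ σ p l)| ≤ w k ∧
        |fderiv ℝ (cX S t φ σ p k l) p v| * w k ≤ w' k ∧
        |pb (etx O ξ) (fun q => (φ q).1) (fun q => PX S t φ σ q k) p v -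
          pb (etx O ξ) (fun q => (φ q).1) (fun q => PX S t φ σ q l) p v| ≤ w' k ∧
        w l ≤ K * w k ∧ w' l ≤ K * w' k) (k : Fin 7) {B : ℝ}
    (hη : |O.η ξ (S (k, t)) (prj (k, t) (φ p)) (σ p (k, t)) (prj (k, t) (fderiv ℝ φ p v))| ≤
      B * w' k) :
    |th O (k, t) ξ S (φ p) (σ p) (fderiv ℝ φ p v)| ≤ (B + CW K) * w' k := by
  have h1 := congrArg (fun f : X →L[ℝ] ℝ => f v) (h.leg_eq (t := t) O hξ k)
  have h2 : th O (k, t) ξ S (φ p) (σ p) (fderiv ℝ φ p v) =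
      O.η ξ (S (k, t)) (prj (k, t) (φ p)) (σ p (k, t)) (prj (k, t) (fderiv ℝ φ p v)) +
        fderiv ℝ (gfun (cX S t φ σ p) (pX O ξ S t φ σ p) k) p v := h1
  rw [h2, add_mul]
  exact (abs_add_le _ _).trans (add_le_add hη (gX_bound_w h O hξ hw hw' hK hd k).2)

end Vale.Agent.P273.H668
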