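import Vale.Agent.P273.H730.Asm0

/-!
# P273, crew ASY1 (helper668): logarithmic derivatives of two near marks, one pair

`neck_pair`: two neck marks with comparable coordinates; `core_pair` is immediate.
-/

open Set Filter Topology Metric
open scoped ContDiff ComplexConjugate
open Vale.Agent.P273.H973 Vale.Agent.P273.H562 Vale.Agent.P273.H578 Vale.Agent.P273.H681
open Vale.Agent.P273.H730

noncomputable section

namespace Vale.Agent.P273.H668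

theorem logP_mono {b b' : Fin 6 → ℂ} {x x' ζ : ℂ} {ρ ρ' : ℝ} (h : LogP b b' x x' ζ ρ)
    (hρ : ρ ≤ ρ') : LogP b b' x x' ζ ρ' := fun i =>
  (h i).trans (mul_le_mul_of_nonneg_right (mul_le_mul_of_nonneg_right hρ (by positivity))
    (qs_nonneg _))

theorem logP_shift {b b' : Fin 6 → ℂ} {x x' ζ : ℂ} {ρ : ℝ} (h : LogP b b' x x' ζ ρ)
    (hx : ∀ i, x ≠ b i) (ζ' : ℂ) : LogP b b' x x' ζ' (ρ + ‖ζ - ζ'‖) := by
  intro i
  have h1 := h i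
  have h2 : (x' - b' i) - ζ' * (x - b i) =
      ((x' - b' i) - ζ * (x - b i)) + (ζ - ζ') * (x - b i) := by ring
  rw [h2]
  refine (norm_add_le _ _).trans ?_
  rw [norm_mul, add_mul, add_mul]
  refine add_le_add h1 ?_
  have h3 := one_le_mul_qs (t := fun i => x - b i) (i := i) (sub_ne_zero.2 (hx i))
  calc ‖ζ - ζ'‖ * ‖x - b i‖
      ≤ ‖ζ - ζ'‖ * ‖x - b i‖ * (‖x - b i‖ ^ 2 * qs fun i => x - b i) :=
        le_mul_of_one_le_right (by positivity) h3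
    _ = _ := by ring

/-- the three clauses of `NeckL` at one mark -/
def NL (k : Fin 5) (q : C6) (d X Y : ℂ) (B : ℝ) : Prop := ∀ (δ : C6) (lX lY : ℂ),
  LogP (bd k q d) (bw k δ d ((lX + lY) / 2)) (xn k q X Y) (nv k δ d X Y lX lY).2 0
    (B * (‖δ‖ + ‖lX‖ + ‖lY‖)) ∧
  (‖Y‖ ≤ 4 * ‖X‖ →
    LogP (bd k q d) (bw k δ d ((lX + lY) / 2)) (xn k q X Y) (nv k δ d X Y lX lY).2 lX
      (B * (‖δ‖ + ‖X‖ ^ 2 * ‖lX‖ + ‖d‖ ^ 2 * ‖lY‖ + ‖lY - lX‖ * (‖d‖ / ‖X‖)))) ∧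
  (‖X‖ ≤ 4 * ‖Y‖ →
    LogP (bd k q d) (bw k δ d ((lX + lY) / 2)) (xn k q X Y) (nv k δ d X Y lX lY).2 lY
      (B * (‖δ‖ + ‖Y‖ ^ 2 * ‖lY‖ + ‖d‖ ^ 2 * ‖lX‖ + ‖lX - lY‖ * (‖d‖ / ‖Y‖))))

/-- the numbers -/
theorem scal {x y x' a B κ t δ lx ly lx' ly' h h' : ℝ} (hx : 0 < x) (hy : 0 ≤ y) (ha : 0 ≤ a)
    (hB : 0 ≤ B) (ht0 : 0 ≤ t) (hyx : y ≤ x) (hx1 : x ≤ 1) (hxy : a ^ 2 = x * y)
    (hδ : δ ≤ κ) (hlx : x * lx ≤ κ) (hlx' : x' * lx' ≤ κ) (hly : ly ≤ 1) (hly' : ly' ≤ 1)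
    (hc1 : 3 / 4 * x ≤ x') (hc2 : x' ≤ 5 / 4 * x) (haκ : a ≤ κ) (htκ : t ≤ κ) (ht : t ≤ 1)
    (hh0 : 0 ≤ h) (hh0' : 0 ≤ h') (hh : h ≤ 2) (hh' : h' ≤ 2) :
    0 ≤ B * (4 * κ + (h + 2 * h') * (a / x)) + κ ∧
    B * (δ + x ^ 2 * lx + a ^ 2 * ly + h * (a / x)) ≤ B * (4 * κ + (h + 2 * h') * (a / x)) + κ ∧
    B * (δ + x' ^ 2 * lx' + a ^ 2 * ly' + h' * (a / x')) ≤
      B * (4 * κ + (h + 2 * h') * (a / x)) ∧
    (B * (4 * κ + (h + 2 * h') * (a / x)) + κ) * (t + 2 * (x + y)) ≤ (60 * B + 5) * κ := by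
  have hκ : 0 ≤ κ := ht0.trans htκ
  have hax : a ≤ x := by
    have : a ^ 2 ≤ x ^ 2 := by rw [hxy, sq]; exact mul_le_mul_of_nonneg_left hyx hx.le
    exact le_of_sq_le_sq this hx.le
  have ha1 : a ≤ 1 := hax.trans hx1
  have hs0 : 0 ≤ a / x := by positivity
  have hs1 : a / x ≤ 1 := (div_le_one hx).2 hax
  have hx'0 : 0 < x' := by linarith
  have hs' : a / x' ≤ 2 * (a / x) := by
    rw [div_le_iff₀ hx'0]
    have : 2 * (a / x) * x' ≥ 2 * (a / x) * (3 / 4 * x) :=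
      mul_le_mul_of_nonneg_left hc1 (by positivity)
    have h2 : 2 * (a / x) * (3 / 4 * x) = 3 / 2 * a := by field_simp; ring
    linarith
  have e1 : x ^ 2 * lx ≤ κ := by
    have : x ^ 2 * lx = x * (x * lx) := by ring
    rw [this]
    calc x * (x * lx) ≤ x * κ := mul_le_mul_of_nonneg_left hlx hx.le
      _ ≤ 1 * κ := mul_le_mul_of_nonneg_right hx1 hκ
      _ = κ := one_mul κ
  have e1' : x' ^ 2 * lx' ≤ 2 * κ := by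
    have : x' ^ 2 * lx' = x' * (x' * lx') := by ring
    rw [this]
    calc x' * (x' * lx') ≤ x' * κ := mul_le_mul_of_nonneg_left hlx' hx'0.le
      _ ≤ 2 * κ := mul_le_mul_of_nonneg_right (by linarith) hκ
  have ea : a ^ 2 ≤ κ := by
    calc a ^ 2 = a * a := sq a
      _ ≤ 1 * κ := mul_le_mul ha1 haκ ha zero_le_one
      _ = κ := one_mul κ
  have e2 : a ^ 2 * ly ≤ κ := (mul_le_of_le_one_right (sq_nonneg a) hly).trans ea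
  have e2' : a ^ 2 * ly' ≤ κ := (mul_le_of_le_one_right (sq_nonneg a) hly').trans ea
  have e3 : 0 ≤ h' * (a / x) := mul_nonneg hh0' hs0
  have e3' : h' * (a / x') ≤ 2 * h' * (a / x) := by
    have := mul_le_mul_of_nonneg_left hs' hh0'
    linarith
  have e4 : 0 ≤ h * (a / x) := mul_nonneg hh0 hs0
  refine ⟨by positivity, ?_, ?_, ?_⟩
  · have : B * (δ + x ^ 2 * lx + a ^ 2 * ly + h * (a / x)) ≤
        B * (4 * κ + (h + 2 * h') * (a / x)) := by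
      refine mul_le_mul_of_nonneg_left ?_ hB
      nlinarith
    linarith
  · refine mul_le_mul_of_nonneg_left ?_ hB
    nlinarith
  · have f1 : (h + 2 * h') * (a / x) ≤ 6 * (a / x) :=
      mul_le_mul_of_nonneg_right (by linarith) hs0
    have f2 : t + 2 * (x + y) ≤ t + 4 * x := by linarith
    have f3 : 0 ≤ t + 2 * (x + y) := by positivity
    have f4 : (a / x) * (t + 4 * x) ≤ 5 * κ := by
      have g1 : (a / x) * t ≤ κ := by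
        calc (a / x) * t ≤ 1 * κ := mul_le_mul hs1 htκ ht0 zero_le_one
          _ = κ := one_mul κ
      have g2 : (a / x) * (4 * x) = 4 * a := by field_simp
      calc (a / x) * (t + 4 * x) = (a / x) * t + (a / x) * (4 * x) := by ring
        _ ≤ κ + 4 * κ := by rw [g2]; linarith
        _ = 5 * κ := by ring
    have f5 : κ * (t + 4 * x) ≤ 5 * κ := by
      have : t + 4 * x ≤ 5 := by linarith
      calc κ * (t + 4 * x) ≤ κ * 5 := mul_le_mul_of_nonneg_left this hκ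
        _ = 5 * κ := by ring
    calc (B * (4 * κ + (h + 2 * h') * (a / x)) + κ) * (t + 2 * (x + y))
        ≤ (B * (4 * κ + 6 * (a / x)) + κ) * (t + 4 * x) := by
          refine mul_le_mul ?_ f2 f3 (by positivity)
          have := mul_le_mul_of_nonneg_left (add_le_add_left f1 (4 * κ)) hB
          linarith
      _ = B * (4 * (κ * (t + 4 * x)) + 6 * ((a / x) * (t + 4 * x))) + κ * (t + 4 * x) := by ring
      _ ≤ B * (4 * (5 * κ) + 6 * (5 * κ)) + 5 * κ := by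
          refine add_le_add (mul_le_mul_of_nonneg_left ?_ hB) f5
          linarith
      _ = 50 * (B * κ) + 5 * κ := by ring
      _ ≤ (60 * B + 5) * κ := by
          have hBκ : 0 ≤ B * κ := mul_nonneg hB hκ
          have e : (60 * B + 5) * κ = 60 * (B * κ) + 5 * κ := by ring
          rw [e]
          linarith

/-- the numbers, Euler direction -/
theorem scal2 {x a B κ h h' mx : ℝ} (hx : 0 < x) (hB : 0 ≤ B) (hκ : 0 ≤ κ)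
    (g1 : h * a ≤ κ * x) (g2 : h' * a ≤ κ * mx) (g4 : mx ≤ 5 / 4 * x) :
    B * (4 * κ + (h + 2 * h') * (a / x)) + κ ≤ (12 * B + 1) * κ := by
  have g3 : h * (a / x) ≤ κ := by
    rw [← mul_div_assoc, div_le_iff₀ hx]
    exact g1
  have g5 : h' * (a / x) ≤ 5 / 4 * κ := by
    rw [← mul_div_assoc, div_le_iff₀ hx]
    refine g2.trans ?_
    have := mul_le_mul_of_nonneg_left g4 hκ
    linarith
  have g6 : 4 * κ + (h + 2 * h') * (a / x) ≤ 8 * κ := by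
    have e : (h + 2 * h') * (a / x) = h * (a / x) + 2 * (h' * (a / x)) := by ring
    rw [e]
    linarith
  have g7 := mul_le_mul_of_nonneg_left g6 hB
  have hBκ : 0 ≤ B * κ := mul_nonneg hB hκ
  have e1 : B * (8 * κ) = 8 * (B * κ) := by ring
  have e2 : (12 * B + 1) * κ = 12 * (B * κ) + κ := by ring
  rw [e2]
  linarith

/-- hypotheses of a pair of comparable neck marks -/
structure PairHyp (k : Fin 5) (q : C6) (d X Y X' Y' : ℂ) (B κ t : ℝ) (δ : C6)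
    (lX lY lX' lY' : ℂ) : Prop where
  hN : NL k q d X Y B
  hN' : NL k q d X' Y' B
  hB : 0 ≤ B
  hd : d ≠ 0
  hXY : X * Y = d ^ 2
  hXY' : X' * Y' = d ^ 2
  hX : ‖X‖ ≤ 1
  hY : ‖Y‖ ≤ 1
  hcX : ‖X' - X‖ ≤ ‖X‖ / 4
  hcY : ‖Y' - Y‖ ≤ ‖Y‖ / 4
  hoff : ∀ i, xn k q X' Y' ≠ bd k q d i
  hl : (lX + lY) / 2 = (lX' + lY') / 2
  hδ : ‖δ‖ ≤ κ
  h1 : ‖X‖ * ‖lX‖ ≤ κ
  h2 : ‖Y‖ * ‖lY‖ ≤ κ
  h1' : ‖X'‖ * ‖lX'‖ ≤ κ
  h2' : ‖Y'‖ * ‖lY'‖ ≤ κ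
  h3 : ‖lX‖ ≤ 1
  h4 : ‖lY‖ ≤ 1
  h3' : ‖lX'‖ ≤ 1
  h4' : ‖lY'‖ ≤ 1
  h5 : ‖lX' - lX‖ ≤ κ
  h6 : ‖lY' - lY‖ ≤ κ
  hdκ : ‖d‖ ≤ κ
  ht0 : 0 ≤ t
  htκ : t ≤ κ
  ht : t ≤ 1

section pair

variable {k : Fin 5} {q : C6} {d X Y X' Y' : ℂ} {B κ t : ℝ} {δ : C6} {lX lY lX' lY' : ℂ}

theorem PairHyp.pos (h : PairHyp k q d X Y X' Y' B κ t δ lX lY lX' lY') :
    0 ≤ κ ∧ 0 < ‖X‖ ∧ 0 < ‖Y‖ ∧ 0 < ‖d‖ ∧ ‖d‖ ^ 2 = ‖X‖ * ‖Y‖ ∧ 3 / 4 * ‖X‖ ≤ ‖X'‖ ∧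
      ‖X'‖ ≤ 5 / 4 * ‖X‖ ∧ 3 / 4 * ‖Y‖ ≤ ‖Y'‖ ∧ ‖Y'‖ ≤ 5 / 4 * ‖Y‖ ∧ ‖lY - lX‖ ≤ 2 ∧
      ‖lY' - lX'‖ ≤ 2 := by
  have hXYn : X * Y ≠ 0 := by rw [h.hXY]; exact pow_ne_zero 2 h.hd
  have a1 := norm_sub_norm_le X X'
  have a2 := norm_sub_norm_le X' X
  have a3 := norm_sub_norm_le Y Y'
  have a4 := norm_sub_norm_le Y' Y
  rw [norm_sub_rev] at a1 a3
  have b1 := h.hcX
  have b2 := h.hcY
  have b3 := h.h3
  have b4 := h.h4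
  have b5 := h.h3'
  have b6 := h.h4'
  have b7 := norm_sub_le lY lX
  have b8 := norm_sub_le lY' lX'
  refine ⟨h.ht0.trans h.htκ, norm_pos_iff.2 (left_ne_zero_of_mul hXYn),
    norm_pos_iff.2 (right_ne_zero_of_mul hXYn), norm_pos_iff.2 h.hd, ?_, ?_, ?_, ?_, ?_, ?_, ?_⟩
  · rw [← norm_pow, ← h.hXY, norm_mul]
  all_goals linarith

/-- the conclusion of a pair -/
def PairCon (k : Fin 5) (q : C6) (d X Y X' Y' : ℂ) (B κ t : ℝ) (δ : C6)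
    (lX lY lX' lY' : ℂ) : Prop :=
  ∃ (ζ : ℂ) (ρ : ℝ), 0 ≤ ρ ∧
    LogP (bd k q d) (bw k δ d ((lX + lY) / 2)) (xn k q X Y) (nv k δ d X Y lX lY).2 ζ ρ ∧
    LogP (bd k q d) (bw k δ d ((lX' + lY') / 2)) (xn k q X' Y') (nv k δ d X' Y' lX' lY').2 ζ ρ ∧
    ρ * (t + 2 * (‖X‖ + ‖Y‖)) ≤ (60 * B + 5) * κ ∧
    (‖lY - lX‖ * ‖d‖ ≤ κ * max ‖X‖ ‖Y‖ → ‖lY' - lX'‖ * ‖d‖ ≤ κ * max ‖X'‖ ‖Y'‖ →
      ρ ≤ (12 * B + 1) * κ)

theorem neck_pair_X (h : PairHyp k q d X Y X' Y' B κ t δ lX lY lX' lY') (hc : ‖Y‖ ≤ ‖X‖) :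
    PairCon k q d X Y X' Y' B κ t δ lX lY lX' lY' := by
  obtain ⟨hκ, hX0, hY0, hd0, hnd, hx1, hx2, hy1, hy2, hh, hh'⟩ := h.pos
  obtain ⟨s0, s1, s2, s3⟩ := scal (x := ‖X‖) (y := ‖Y‖) (x' := ‖X'‖) (a := ‖d‖) (B := B)
    (κ := κ) (t := t) (δ := ‖δ‖) (lx := ‖lX‖) (ly := ‖lY‖) (lx' := ‖lX'‖) (ly' := ‖lY'‖)
    (h := ‖lY - lX‖) (h' := ‖lY' - lX'‖) hX0 hY0.le hd0.le h.hB h.ht0 hc h.hX hnd h.hδ h.h1
    h.h1' h.h4 h.h4' hx1 hx2 h.hdκ h.htκ h.ht (norm_nonneg _) (norm_nonneg _) hh hh'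
  refine ⟨lX, B * (4 * κ + (‖lY - lX‖ + 2 * ‖lY' - lX'‖) * (‖d‖ / ‖X‖)) + κ, s0,
    logP_mono ((h.hN δ lX lY).2.1 (by linarith)) s1, ?_, s3, ?_⟩
  · refine logP_mono (logP_shift ((h.hN' δ lX' lY').2.1 (by linarith)) h.hoff lX) ?_
    exact add_le_add s2 h.h5
  · intro g1 g2
    rw [max_eq_left hc] at g1
    exact scal2 hX0 h.hB hκ g1 g2 (max_le hx2 (hy2.trans (by linarith)))

theorem neck_pair_Y (h : PairHyp k q d X Y X' Y' B κ t δ lX lY lX' lY') (hc : ‖X‖ ≤ ‖Y‖) :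
    PairCon k q d X Y X' Y' B κ t δ lX lY lX' lY' := by
  obtain ⟨hκ, hX0, hY0, hd0, hnd, hx1, hx2, hy1, hy2, hh, hh'⟩ := h.pos
  rw [norm_sub_rev] at hh hh'
  obtain ⟨s0, s1, s2, s3⟩ := scal (x := ‖Y‖) (y := ‖X‖) (x' := ‖Y'‖) (a := ‖d‖) (B := B)
    (κ := κ) (t := t) (δ := ‖δ‖) (lx := ‖lY‖) (ly := ‖lX‖) (lx' := ‖lY'‖) (ly' := ‖lX'‖)
    (h := ‖lX - lY‖) (h' := ‖lX' - lY'‖) hY0 hX0.le hd0.le h.hB h.ht0 hc h.hY
    (by rw [hnd, mul_comm]) h.hδ h.h2 h.h2' h.h3 h.h3' hy1 hy2 h.hdκ h.htκ h.ht (norm_nonneg _)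
    (norm_nonneg _) hh hh'
  refine ⟨lY, B * (4 * κ + (‖lX - lY‖ + 2 * ‖lX' - lY'‖) * (‖d‖ / ‖Y‖)) + κ, s0,
    logP_mono ((h.hN δ lX lY).2.2 (by linarith)) s1, ?_, ?_, ?_⟩
  · refine logP_mono (logP_shift ((h.hN' δ lX' lY').2.2 (by linarith)) h.hoff lY) ?_
    exact add_le_add s2 h.h6
  · rw [add_comm ‖X‖ ‖Y‖]
    exact s3
  · intro g1 g2
    rw [max_eq_right hc, norm_sub_rev] at g1
    rw [norm_sub_rev] at g2
    exact scal2 hY0 h.hB hκ g1 g2 (max_le (hx2.trans (by linarith)) hy2)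

/-- **two comparable neck marks**: a common logarithmic derivative -/
theorem neck_pair (h : PairHyp k q d X Y X' Y' B κ t δ lX lY lX' lY') :
    PairCon k q d X Y X' Y' B κ t δ lX lY lX' lY' :=
  (le_total ‖Y‖ ‖X‖).elim (neck_pair_X h) (neck_pair_Y h)

end pair

end Vale.Agent.P273.H668
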