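import Vale.Agent.P273.H668.PairN
import Vale.Agent.P273.H581.LogL

/-!
# P273, crew ASY1 (helper668): marks away from the pair, all directions of the chart
-/

open Set Filter Topology Metric
open Vale.Agent.P273.H562 Vale.Agent.P273.H681 Vale.Agent.P273.H95 Vale.Agent.P273.H879
open Vale.Agent.P273.H730
open Vale.Agent.P273.H828 (qb Xj Yj lX lY lB lam NE toE_roots toE_neck toE_core fderiv_neck
  fderiv_core cst_nn norm_qb_evec_le norm_lX_evec_le norm_lY_evec_le lX_add_lY core_T1)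

noncomputable section

namespace Vale.Agent.P273.H668

variable {R : Region1} {m : Fin (R.n + 1)} {p : Co1 R m}

theorem norm_lam_half_le (hp : (wr R m).Inr p) (hy : 1 ≤ p.2.2.1 ()) (d : Dir1 R m) :
    ‖lam R m (evec p d) / 2‖ ≤ 1 := by
  rw [← lX_add_lY 0, norm_div, Complex.norm_ofNat]
  have h1 := norm_lX_evec_le hp (by linarith) 0 d
  have h2 := norm_lY_evec_le hp (by linarith) 0 d
  have h3 := norm_add_le (lX R m 0 (evec p d)) (lY R m 0 (evec p d))
  linarith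

/-- the movement of a mark on the core or in the neck costs at most `61 cst` -/
theorem norm_dmark_le (hp : (wr R m).Inr p) (hy : 1 ≤ p.2.2.1 ()) {c : ℝ} (hc : 0 < c)
    (hc1 : c ≤ 1) (k : Fin 5) (j : L) (d : Dir1 R m) :
    ‖(fderiv ℝ (toE k c) p (evec p d)).2 j‖ ≤ 61 * cst p d := by
  have h0 := cst_nn hy d
  rcases Bool.eq_false_or_eq_true (R.nk j) with hj | hj
  · have e2 : (fderiv ℝ (toE k c) p (evec p d)).2 j =
        (nv k (qb k (evec p d)) (zh c p) (Xj c p j) (Yj c p j) (lX R m (R.rk j) (evec p d))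
          (lY R m (R.rk j) (evec p d))).2 := congrArg Prod.snd (fderiv_neck k c p (evec p d) hj)
    rw [e2]
    have h1 := H581.norm_nv_le (k := k) (qb k (evec p d)) (zh c p) (Xj c p j) (Yj c p j)
      (lX R m (R.rk j) (evec p d)) (lY R m (R.rk j) (evec p d))
    have h2 := mul_lX_le hp hy hc hc1 hj d
    have h3 := norm_qb_evec_le k hy d
    linarith [h2.1, h2.2]
  · have e2 : (fderiv ℝ (toE k c) p (evec p d)).2 j = (evec p d).2.2.2.2 (Sum.inl ⟨j, hj⟩) :=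
      congrArg Prod.snd (fderiv_core k c p (evec p d) hj)
    rw [e2]
    have h1 := core_T1 hy k ⟨j, hj⟩ d
    have h2 := norm_nonneg (qb k (evec p d))
    have h3 : 0 ≤ (p.2.2.1 ())⁻¹ * ‖lam R m (evec p d) / 2‖ :=
      mul_nonneg (inv_nonneg.2 (by linarith)) (norm_nonneg _)
    linarith

theorem fderiv_fst (k : Fin 5) (c : ℝ) (w : Co1 R m) :
    (fderiv ℝ (toE k c) p w).1 = bw k (qb k w) (zh c p) (lam R m w / 2) :=
  H828.fderiv_roots k c p w

/-- **marks away from the pair** -/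
theorem coreP (k : Fin 5) {q₀ : C6} (hq₀ : q₀ ∈ H828.XD k) {r : ℝ} (hr : 0 < r) (Rf : ℝ) :
    ∃ U ∈ 𝓝 q₀, ∀ c, 0 < c → c ≤ 1 → ∃ M₀ C : ℝ, 1 ≤ M₀ ∧ 0 < C ∧
    ∀ (R : Region1) (m : Fin (R.n + 1)) (p : Co1 R m), (wr R m).Inr p → M₀ ≤ p.2.2.1 () →
      Adm k U c M₀ (qb k p) (zh c p) → ∀ j : L, ‖(toE k c p).2 j‖ ≤ Rf →
      c / 16 ≤ ‖(toE k c p).2 j - qb k p k.castSucc‖ →
      (∀ l : Fin 6, l ≠ k.castSucc → l ≠ k.succ → r ≤ ‖(toE k c p).2 j - qb k p l‖) →
      ∀ d : Dir1 R m, LP k c p (evec p d) j 0 (C * cst p d) := by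
  obtain ⟨U, hU, H⟩ := H581.coreL k q₀ hq₀
  refine ⟨U, hU, fun c hc hc1 => ?_⟩
  obtain ⟨M, B, hM, hB, H⟩ := H c r Rf hc hr
  refine ⟨max M 1, B * 64, le_max_right _ _, by positivity, ?_⟩
  intro R m p hp hy hA j h1 h2 h3 d
  have hy1 : 1 ≤ p.2.2.1 () := (le_max_right _ _).trans hy
  have h0 := cst_nn hy1 d
  have hA' : Adm k U c M (qb k p) (zh c p) := { hA with len := (le_max_left _ _).trans hA.len }
  have h4 := H (qb k p) (zh c p) hA' ((toE k c p).2 j) h1 h2 h3 (qb k (evec p d))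
    (lam R m (evec p d) / 2) ((fderiv ℝ (toE k c) p (evec p d)).2 j)
  unfold LP
  rw [toE_roots, fderiv_fst]
  refine logP_mono h4 ?_
  have e1 := norm_qb_evec_le k hy1 d
  have e2 := norm_dmark_le hp hy1 hc hc1 k j d
  have e3 := norm_zh_le hc hc1 hy1 d
  have e4 := norm_lam_half_le hp hy1 d
  have e5 : ‖zh c p‖ * ‖lam R m (evec p d) / 2‖ ≤ 2 * cst p d := by
    calc ‖zh c p‖ * ‖lam R m (evec p d) / 2‖ ≤ 2 * cst p d * 1 :=
          mul_le_mul e3 e4 (norm_nonneg _) (by positivity)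
      _ = 2 * cst p d := mul_one _
  rw [mul_assoc]
  refine mul_le_mul_of_nonneg_left ?_ hB.le
  linarith

end Vale.Agent.P273.H668
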