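import Vale.Agent.P273.H668.PairLog
import Vale.Agent.P273.H865.LogC

/-!
# P273, crew ASY1 (helper668): the logarithmic derivatives of a near pair of marks, all charts

`pairM`: the data of two near active marks, each in the chart `x` or in the chart `1/x`.
-/

open Set Filter Topology Metric
open Vale.Agent.P273.H562 Vale.Agent.P273.H681 Vale.Agent.P273.H95 Vale.Agent.P273.H879
open Vale.Agent.P273.H730 Vale.Agent.P273.H973
open Vale.Agent.P273.H578 (Pt Nr rad rad_le rad_pos Brd PX cX pX Off Hs LogN)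
open Vale.Agent.P273.H865 (ActP bd_castSucc bd_succ bd_other)
open Vale.Agent.P273.H828 (qb Xj Yj lX lY lB lam NE toE_roots toE_neck toE_core Xj_mul_Yj cst_nn
  norm_Xj_le norm_Yj_le norm_qb_evec_le)

noncomputable section

namespace Vale.Agent.P273.H668

variable {R : Region1} {m : Fin (R.n + 1)}

/-- the velocity of the coordinate `x` of a mark -/
def xd (S : L → Bool) (e e' : E) (j : L) : ℂ :=
  if S j = true then -((e.2 j ^ 2)⁻¹ * e'.2 j) else e'.2 j

/-- `LogP` for the coordinate `x` of a mark -/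
def XL (S : L → Bool) (k : Fin 5) (c : ℝ) (p w : Co1 R m) (j : L) (ζ : ℂ) (ρ : ℝ) : Prop :=
  LogP (toE k c p).1 (fderiv ℝ (toE k c) p w).1 (Xp S (toE k c p) j)
    (xd S (toE k c p) (fderiv ℝ (toE k c) p w) j) ζ ρ

theorem XL.mono {S : L → Bool} {k : Fin 5} {c : ℝ} {p w : Co1 R m} {j : L} {ζ : ℂ} {ρ ρ' : ℝ}
    (h : XL S k c p w j ζ ρ) (hρ : ρ ≤ ρ') : XL S k c p w j ζ ρ' := logP_mono h hρ

theorem xl_of_lp {S : L → Bool} {k : Fin 5} {c : ℝ} {p w : Co1 R m} {j : L} (hS : S j = false)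
    {ζ : ℂ} {ρ : ℝ} (h : LP k c p w j ζ ρ) : XL S k c p w j ζ ρ := by
  unfold XL xd Xp
  rw [if_neg (by rw [hS]; simp), if_neg (by rw [hS]; simp)]
  exact h

/-- `LogN` along the chart -/
theorem logN_iff_xl {S : L → Bool} {t : Bool} {k : Fin 5} {c : ℝ} {σ : Co1 R m → L → ℂ}
    {p : Co1 R m} (hφ : DifferentiableAt ℝ (toE k c) p) {i : Fin 7}
    (hf : H973.fin S t (toE k c p) i) (w : Co1 R m) (ζ : ℂ) (ρ : ℝ) :
    LogN (fun q => (toE k c q).1) (fun q => PX S t (toE k c) σ q i) p w ζ ρ ↔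
      XL S k c p w (i, t) ζ ρ := by
  rcases Bool.eq_false_or_eq_true (S (i, t)) with hS | hS
  · rw [H865.logN_iff_far hφ hS (fun h => hf ⟨hS, h⟩)]
    unfold XL xd Xp
    rw [if_pos hS, if_pos hS]
  · rw [H865.logN_iff_near hφ hS]
    unfold XL xd Xp
    rw [if_neg (by rw [hS]; simp), if_neg (by rw [hS]; simp)]

/-- data of a near pair of marks -/
def PairX (S : L → Bool) (k : Fin 5) (c : ℝ) (p : Co1 R m) (a b : L) (C : ℝ) : Prop :=
  ∀ d : Dir1 R m, (XL S k c p (evec p d) a 0 C ∧ XL S k c p (evec p d) b 0 C) ∧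
  (¬ NE d → ∃ ζ, XL S k c p (evec p d) a ζ (C * (p.2.2.1 ())⁻¹) ∧
    XL S k c p (evec p d) b ζ (C * (p.2.2.1 ())⁻¹)) ∧
  ∃ (ζ : ℂ) (ρ : ℝ), 0 ≤ ρ ∧ XL S k c p (evec p d) a ζ ρ ∧ XL S k c p (evec p d) b ζ ρ ∧
    ρ * wt1 k c (qb k p) (zh c p) (Xp S (toE k c p) a) ≤ C * cst p d

theorem PairX.mono {S : L → Bool} {k : Fin 5} {c : ℝ} {p : Co1 R m} {a b : L} {C C' : ℝ}
    (hy : 1 ≤ p.2.2.1 ()) (h : PairX S k c p a b C) (hC : C ≤ C') : PairX S k c p a b C' := by
  intro d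
  have h0 := cst_nn hy d
  have h1 : 0 ≤ (p.2.2.1 ())⁻¹ := inv_nonneg.2 (by linarith)
  obtain ⟨⟨a1, a2⟩, a3, ζ, ρ, a4, a5, a6, a7⟩ := h d
  refine ⟨⟨a1.mono hC, a2.mono hC⟩, fun hd => ?_, ζ, ρ, a4, a5, a6,
    a7.trans (mul_le_mul_of_nonneg_right hC h0)⟩
  obtain ⟨ζ, b1, b2⟩ := a3 hd
  exact ⟨ζ, b1.mono (mul_le_mul_of_nonneg_right hC h1),
    b2.mono (mul_le_mul_of_nonneg_right hC h1)⟩

/-- from the bounds away from the pair -/
theorem pairX_core {S : L → Bool} {k : Fin 5} {c : ℝ} {p : Co1 R m} {a b : L} {C W : ℝ}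
    (hC : 0 ≤ C) (hW : 1 ≤ W) (hp : (wr R m).Inr p) (hy : 1 ≤ p.2.2.1 ())
    (ha : ∀ d : Dir1 R m, XL S k c p (evec p d) a 0 (C * cst p d))
    (hb : ∀ d : Dir1 R m, XL S k c p (evec p d) b 0 (C * cst p d))
    (hw : wt1 k c (qb k p) (zh c p) (Xp S (toE k c p) a) ≤ W) : PairX S k c p a b (C * W) := by
  intro d
  have h0 := cst_nn hy d
  have h1 := cst_le_one' hp hy d
  have e1 : C * cst p d ≤ C * W := mul_le_mul_of_nonneg_left (h1.trans hW) hC
  refine ⟨⟨(ha d).mono e1, (hb d).mono e1⟩, fun hd => ⟨0, ?_⟩, 0, C * cst p d,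
    mul_nonneg hC h0, ha d, hb d, ?_⟩
  · cases d with
    | y u =>
      have e2 : cst p (.y u) = (p.2.2.1 ())⁻¹ := rfl
      have h3 : 0 ≤ (p.2.2.1 ())⁻¹ := inv_nonneg.2 (by linarith)
      have e3 : C * cst p (.y u) ≤ C * W * (p.2.2.1 ())⁻¹ := by
        rw [e2]
        exact mul_le_mul_of_nonneg_right (le_mul_of_one_le_right hC hW) h3
      exact ⟨(ha _).mono e3, (hb _).mono e3⟩
    | _ => exact absurd (by simp [NE]) hd
  · calc C * cst p d * wt1 k c (qb k p) (zh c p) (Xp S (toE k c p) a) ≤ C * cst p d * W :=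
          mul_le_mul_of_nonneg_left hw (mul_nonneg hC h0)
      _ = C * W * cst p d := by ring

/-- the movement of the coordinate `x` of a mark -/
theorem norm_xd_le (S : L → Bool) {p : Co1 R m} (hp : (wr R m).Inr p) (hy : 1 ≤ p.2.2.1 ())
    {c : ℝ} (hc : 0 < c) (hc1 : c ≤ 1) (k : Fin 5) (j : L) {Rf : ℝ}
    (hR : ‖Xp S (toE k c p) j‖ ≤ Rf) (d : Dir1 R m) :
    ‖xd S (toE k c p) (fderiv ℝ (toE k c) p (evec p d)) j‖ ≤ 61 * (1 + Rf ^ 2) * cst p d := by
  have h0 := cst_nn hy d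
  have h1 := norm_dmark_le hp hy hc hc1 k j d
  have h2 : 0 ≤ Rf := (norm_nonneg _).trans hR
  unfold xd
  rcases Bool.eq_false_or_eq_true (S j) with hS | hS
  · rw [if_pos hS, norm_neg, norm_mul, norm_inv, norm_pow]
    have e : Xp S (toE k c p) j = ((toE k c p).2 j)⁻¹ := by
      unfold Xp
      rw [if_pos hS]
    rw [e, norm_inv] at hR
    have h3 : (‖(toE k c p).2 j‖ ^ 2)⁻¹ ≤ Rf ^ 2 := by
      rw [← inv_pow]
      exact pow_le_pow_left₀ (by positivity) hR 2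
    calc (‖(toE k c p).2 j‖ ^ 2)⁻¹ * ‖(fderiv ℝ (toE k c) p (evec p d)).2 j‖
        ≤ Rf ^ 2 * (61 * cst p d) := mul_le_mul h3 h1 (norm_nonneg _) (by positivity)
      _ ≤ 61 * (1 + Rf ^ 2) * cst p d := by nlinarith
  · rw [if_neg (by rw [hS]; simp)]
    refine h1.trans ?_
    have : 0 ≤ Rf ^ 2 * cst p d := by positivity
    nlinarith

/-- **marks away from the pair** -/
theorem coreX (k : Fin 5) {q₀ : C6} (hq₀ : q₀ ∈ H828.XD k) :
    ∃ U ∈ 𝓝 q₀, ∀ r, 0 < r → ∀ Rf : ℝ, ∀ c, 0 < c → c ≤ 1 → ∃ M₀ C : ℝ, 1 ≤ M₀ ∧ 0 < C ∧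
    ∀ (R : Region1) (m : Fin (R.n + 1)) (S : L → Bool) (p : Co1 R m), (wr R m).Inr p →
      M₀ ≤ p.2.2.1 () → Adm k U c M₀ (qb k p) (zh c p) →
      ∀ j : L, ‖Xp S (toE k c p) j‖ ≤ Rf →
      c / 16 ≤ ‖Xp S (toE k c p) j - qb k p k.castSucc‖ →
      (∀ l : Fin 6, l ≠ k.castSucc → l ≠ k.succ → r ≤ ‖Xp S (toE k c p) j - qb k p l‖) →
      ∀ d : Dir1 R m, XL S k c p (evec p d) j 0 (C * cst p d) := by
  obtain ⟨U, hU, H⟩ := H581.coreL k q₀ hq₀
  refine ⟨U, hU, fun r hr Rf c hc hc1 => ?_⟩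
  obtain ⟨M, B, hM, hB, H⟩ := H c r Rf hc hr
  refine ⟨max M 1, B * (64 * (1 + Rf ^ 2)), le_max_right _ _, by positivity, ?_⟩
  intro R m S p hp hy hA j h1 h2 h3 d
  have hy1 : 1 ≤ p.2.2.1 () := (le_max_right _ _).trans hy
  have h0 := cst_nn hy1 d
  have hA' : Adm k U c M (qb k p) (zh c p) := { hA with len := (le_max_left _ _).trans hA.len }
  have h4 := H (qb k p) (zh c p) hA' (Xp S (toE k c p) j) h1 h2 h3 (qb k (evec p d))
    (lam R m (evec p d) / 2) (xd S (toE k c p) (fderiv ℝ (toE k c) p (evec p d)) j)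
  unfold XL
  rw [toE_roots, fderiv_fst]
  refine logP_mono h4 ?_
  have e1 := norm_qb_evec_le k hy1 d
  have e2 := norm_xd_le S hp hy1 hc hc1 k j h1 d
  have e3 := norm_zh_le hc hc1 hy1 d
  have e4 := norm_lam_half_le hp hy1 d
  have e5 : ‖zh c p‖ * ‖lam R m (evec p d) / 2‖ ≤ 2 * cst p d := by
    calc ‖zh c p‖ * ‖lam R m (evec p d) / 2‖ ≤ 2 * cst p d * 1 :=
          mul_le_mul e3 e4 (norm_nonneg _) (by positivity)
      _ = 2 * cst p d := mul_one _
  rw [mul_assoc]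
  refine mul_le_mul_of_nonneg_left ?_ hB.le
  have e6 : 0 ≤ Rf ^ 2 * cst p d := by positivity
  nlinarith

/-- **the logarithmic derivatives of a near pair of marks** -/
theorem pairM (k : Fin 5) {q₀ : C6} (hq₀ : q₀ ∈ H828.XD k) :
    ∃ U ∈ 𝓝 q₀, ∃ c₀ > 0, ∀ c, 0 < c → c ≤ c₀ → ∃ R₁ > 0, ∀ R₀ ≥ R₁, ∀ r ρR : ℝ, 0 < r →
    ∃ M₀ C : ℝ, 0 < M₀ ∧ 0 < C ∧
    ∀ (R : Region1) (m : Fin (R.n + 1)) (S : L → Bool) (p : Co1 R m) (g : ℂ)
      (v : L → ℂ), InReg k (U ∩ H828.XD k) c R₀ M₀ S p g v → (toE k c p).1 ∈ XX →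
    ∀ (t : Bool) (a b : Fin 7),
    H973.fin S t (toE k c p) a → H973.fin S t (toE k c p) b →
    Nr (rad a) (toE k c p).1 (PP S t (toE k c p) (R.sht (toSp c p) g v) a)
      (PP S t (toE k c p) (R.sht (toSp c p) g v) b) →
    ActP (1 / 10) (r / 2) (2 * ρR) k (qb k p) (zh c p)
      (PP S t (toE k c p) (R.sht (toSp c p) g v) a).1 →
    ActP (1 / 10) (r / 2) (2 * ρR) k (qb k p) (zh c p)
      (PP S t (toE k c p) (R.sht (toSp c p) g v) b).1 →
    PairX S k c p (a, t) (b, t) C := by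
  obtain ⟨U1, hU1, c1, hc1, H1⟩ := H581.neckL k q₀ hq₀
  obtain ⟨U2, hU2, H2⟩ := coreX k hq₀
  obtain ⟨U3, hU3, dl, hdl, hdl1, H3⟩ := H581.exists_far hq₀
  refine ⟨U1 ∩ (U2 ∩ (U3 ∩ ball q₀ 1)), inter_mem hU1 (inter_mem hU2 (inter_mem hU3
    (ball_mem_nhds q₀ one_pos))), min (min 1 c1) (dl / 32),
    lt_min (lt_min one_pos hc1) (by positivity), fun c hc hcc => ?_⟩
  have hc_1 : c ≤ 1 := hcc.trans ((min_le_left _ _).trans (min_le_left _ _))
  have hc_c1 : c ≤ c1 := hcc.trans ((min_le_left _ _).trans (min_le_right _ _))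
  have hc_dl : c ≤ dl / 32 := hcc.trans (min_le_right _ _)
  have hq0 := norm_nonneg q₀
  refine ⟨4 * (‖q₀‖ + 4), by positivity, fun R₀ hR₀ r ρR hr => ?_⟩
  obtain ⟨M1, B, hM1, hB, H1⟩ := H1 c hc hc_c1
  obtain ⟨M2, C2, hM2, hC2, H2⟩ := H2 (r / 2) (by linarith) (2 * |ρR|) c hc hc_1
  have hρR := abs_nonneg ρR
  have hC0 : 0 ≤ (12 * B + 1) * 30 + (60 * B + 5) * 30 + 3 * B := by positivity
  refine ⟨max M1 M2, max ((12 * B + 1) * 30 + (60 * B + 5) * 30 + 3 * B)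
    (C2 * (1 + (4 * |ρR| + 2 * (‖q₀‖ + 2)))),
    lt_max_of_lt_left hM1, lt_max_of_lt_left (by positivity), ?_⟩
  intro R m S p g v hp hXX t a b ha hb hN hA hA'
  have hy2 : M2 ≤ p.2.2.1 () := (le_max_right _ _).trans hp.y
  have hy : 1 ≤ p.2.2.1 () := hM2.trans hy2
  have hy0 : 0 < p.2.2.1 () := by linarith
  have hq : qb k p ∈ (U1 ∩ (U2 ∩ (U3 ∩ ball q₀ 1))) ∩ H828.XD k := hp.base
  have hK : (U1 ∩ (U2 ∩ (U3 ∩ ball q₀ 1))) ∩ H828.XD k ⊆ H828.XD k := fun q hq => hq.2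
  have hOn := H205.onC_inReg hK hp
  have hbdm : bd k (qb k p) (zh c p) ∈ XX := by rw [← toE_roots]; exact hXX
  have hzh : zh c p ≠ 0 := H205.zh_ne hc p
  have hlen : ∀ M, M ≤ p.2.2.1 () → M ≤ yl c (zh c p) := fun M hM => by
    rw [H828.yl_zh hc]; exact hM
  have hA1 : Adm k U1 c M1 (qb k p) (zh c p) :=
    ⟨hq.1.1, hq.2, hzh, hlen _ ((le_max_left _ _).trans hp.y), hbdm⟩
  have hA2 : Adm k U2 c M2 (qb k p) (zh c p) := ⟨hq.1.2.1, hq.2, hzh, hlen _ hy2, hbdm⟩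
  have hPa : Pt (toE k c p).1 (PP S t (toE k c p) (R.sht (toSp c p) g v) a) := pt_PP hOn ha
  have hPb : Pt (toE k c p).1 (PP S t (toE k c p) (R.sht (toSp c p) g v) b) := pt_PP hOn hb
  have hrad : rad a ≤ 1 / 256 := rad_le _
  have hrt : (toE k c p).1 = bd k (qb k p) (zh c p) := toE_roots k c p
  have hdc : ‖zh c p‖ ≤ c := by
    rw [H828.norm_zh hc]
    exact mul_le_of_le_one_right hc.le (Real.exp_le_one_iff.2 (by linarith))
  have hqn : ‖qb k p‖ ≤ ‖q₀‖ + 1 := by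
    have h1 := hq.1.2.2.2
    rw [mem_ball, dist_eq_norm] at h1
    have h2 := norm_add_le q₀ (qb k p - q₀)
    rw [add_sub_cancel] at h2
    linarith
  have hbd : ∀ l, ‖bd k (qb k p) (zh c p) l‖ ≤ ‖q₀‖ + 2 := by
    intro l
    have := H865.norm_bd_le k (qb k p) (zh c p) l
    linarith
  -- the points
  have fx : ∀ j : Fin 7, (PP S t (toE k c p) (R.sht (toSp c p) g v) j).1 =
    Xp S (toE k c p) (j, t) := fun _ => rfl
  have hoffa : ∀ l, Xp S (toE k c p) (a, t) ≠ (toE k c p).1 l := hPa.off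
  have hoffb : ∀ l, Xp S (toE k c p) (b, t) ≠ (toE k c p).1 l := hPb.off
  have hNN := H865.norm_sub_of_nr hrad hPa hN 0
  rw [fx, fx] at hNN
  have hd0 : 0 < ‖zh c p‖ := norm_pos_iff.2 hzh
  have nkS : ∀ j : L, R.nk j = true → S j = false := by
    intro j hj
    rcases Bool.eq_false_or_eq_true (S j) with hs | hs
    · have := hp.far j hs
      rw [hj] at this
      exact absurd this (by simp)
    · exact hs
  by_cases hnn : R.nk (a, t) = true ∧ R.nk (b, t) = true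
  · -- both marks in the neck
    obtain ⟨hna, hnb⟩ := hnn
    have hSa := nkS _ hna
    have hSb := nkS _ hnb
    have ePa : PP S t (toE k c p) (R.sht (toSp c p) g v) a =
        ((toE k c p).2 (a, t), R.sht (toSp c p) g v (a, t)) := by
      unfold PP Xp Yp
      rw [if_neg (by rw [hSa]; simp), if_neg (by rw [hSa]; simp)]
    have ePb : PP S t (toE k c p) (R.sht (toSp c p) g v) b =
        ((toE k c p).2 (b, t), R.sht (toSp c p) g v (b, t)) := by
      unfold PP Xp Yp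
      rw [if_neg (by rw [hSb]; simp), if_neg (by rw [hSb]; simp)]
    have exa : Xp S (toE k c p) (a, t) = (toE k c p).2 (a, t) := by
      unfold Xp
      rw [if_neg (by rw [hSa]; simp)]
    have exb : Xp S (toE k c p) (b, t) = (toE k c p).2 (b, t) := by
      unfold Xp
      rw [if_neg (by rw [hSb]; simp)]
    rw [ePa] at hA hN
    rw [ePb] at hA' hN
    rw [exb] at hoffb
    have NLof : ∀ j : L, R.nk j = true →
        ‖zh c p‖ / 10 ≤ ‖(toE k c p).2 j - (qb k p k.castSucc - zh c p)‖ →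
        ‖zh c p‖ / 10 ≤ ‖(toE k c p).2 j - (qb k p k.castSucc + zh c p)‖ →
        NL k (qb k p) (zh c p) (Xj c p j) (Yj c p j) B := by
      intro j hj h1 h2 δ l1 l2
      rw [toE_neck k c p hj] at h1 h2
      exact H1 (qb k p) (zh c p) hA1 _ _ (Xj_mul_Yj hj p) (norm_Xj_le hp.inr hy0.le hc hj)
        (norm_Yj_le hp.inr hy0.le hc hj) h1 h2 δ l1 l2
    have hNa := NLof (a, t) hna (by have := hA.a1; linarith) (by have := hA.a2; linarith)
    have hNb := NLof (b, t) hnb (by have := hA'.a1; linarith) (by have := hA'.a2; linarith)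
    have hcomp : ‖Xj c p (b, t) - Xj c p (a, t)‖ ≤ ‖Xj c p (a, t)‖ / 4 ∧
        ‖Yj c p (b, t) - Yj c p (a, t)‖ ≤ ‖Yj c p (a, t)‖ / 4 := by
      have hsh : ∀ j : L, R.nk j = true → ((toE k c p).2 j, R.sht (toSp c p) g v j) =
          (qb k p k.castSucc + (Xj c p j + Yj c p j) / 2,
            g * (∏ l : Fin 4, csq ((qb k p k.castSucc + (Xj c p j + Yj c p j) / 2 -
              R.oth (toSp c p) l) / (qb k p k.castSucc - R.oth (toSp c p) l))) *
              (Xj c p j - Yj c p j) / 2) := by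
        intro j hj
        have e1 : (toE k c p).2 j = qb k p k.castSucc + (Xj c p j + Yj c p j) / 2 :=
          toE_neck k c p hj
        have e2 : R.pos (toSp c p) j = qb k p k.castSucc + (Xj c p j + Yj c p j) / 2 := e1
        have e3 : R.ctr (toSp c p) = qb k p k.castSucc := (H828.qb_castSucc k p).symm
        refine Prod.ext e1 ?_
        show R.sht (toSp c p) g v j = _
        unfold Region1.sht
        rw [if_pos hj, e2, e3]
        rfl
      rw [hsh _ hna, hsh _ hnb, hrt] at hN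
      refine H357.neckC (bd k (qb k p) (zh c p)) k.castSucc k.succ (qb k p k.castSucc) (zh c p) g
        _ _ _ _ (R.oth (toSp c p)) c (rad a) (H865.succ_ne k).symm (bd_castSucc k _ _)
        (bd_succ k _ _) hzh hc hrad (Xj_mul_Yj hna p) (Xj_mul_Yj hnb p)
        (norm_Xj_le hp.inr hy0.le hc hna) (norm_Yj_le hp.inr hy0.le hc hna)
        (norm_Xj_le hp.inr hy0.le hc hnb) (norm_Yj_le hp.inr hy0.le hc hnb) (fun l => ?_) hN
      have h1 := H3 (qb k p) hq.1.2.2.1 (H752.jo k l) (H752.jo_ne1 k l) (H752.jo_ne2 k l)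
      have h2 : qb k p (H752.jo k l) = R.oth (toSp c p) l :=
        H752.bs_jo (R := R) (k := k) (q := toSp c p) l
      rw [h2] at h1
      linarith
    intro d
    have h1 := cst_nn hy d
    have h2 : 0 ≤ (p.2.2.1 ())⁻¹ := inv_nonneg.2 hy0.le
    obtain ⟨⟨a1, a2⟩, a3, ζ, ρ, a4, a5, a6, a7⟩ :=
      pairN hp.inr hy hc hc_1 hna hnb hB.le hNa hNb hcomp.1 hcomp.2 hoffb d
    have g0 := le_max_left ((12 * B + 1) * 30 + (60 * B + 5) * 30 + 3 * B)
        (C2 * (1 + (4 * |ρR| + 2 * (‖q₀‖ + 2))))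
    have g1 : (3 * B : ℝ) ≤ max ((12 * B + 1) * 30 + (60 * B + 5) * 30 + 3 * B)
        (C2 * (1 + (4 * |ρR| + 2 * (‖q₀‖ + 2)))) := le_trans (by nlinarith) g0
    have g2 : (12 * B + 1) * 30 ≤ max ((12 * B + 1) * 30 + (60 * B + 5) * 30 + 3 * B)
        (C2 * (1 + (4 * |ρR| + 2 * (‖q₀‖ + 2)))) := le_trans (by nlinarith) g0
    have g3 : (60 * B + 5) * 30 ≤ max ((12 * B + 1) * 30 + (60 * B + 5) * 30 + 3 * B)
        (C2 * (1 + (4 * |ρR| + 2 * (‖q₀‖ + 2)))) := le_trans (by nlinarith) g0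
    refine ⟨⟨xl_of_lp hSa (a1.mono g1), xl_of_lp hSb (a2.mono g1)⟩, fun hd => ?_, ζ, ρ, a4,
      xl_of_lp hSa a5, xl_of_lp hSb a6, ?_⟩
    · obtain ⟨ζ, b1, b2⟩ := a3 hd
      exact ⟨ζ, xl_of_lp hSa (b1.mono (mul_le_mul_of_nonneg_right g2 h2)),
        xl_of_lp hSb (b2.mono (mul_le_mul_of_nonneg_right g2 h2))⟩
    · rw [exa]
      exact a7.trans (mul_le_mul_of_nonneg_right g3 h1)
  · -- away from the pair
    have hbi : (toE k c p).1 k.castSucc = qb k p k.castSucc - zh c p := by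
      rw [hrt, bd_castSucc]
    have hqc : ‖qb k p k.castSucc‖ ≤ ‖q₀‖ + 1 := (norm_le_pi_norm _ _).trans hqn
    have hb0 : ‖(toE k c p).1 0‖ ≤ ‖q₀‖ + 2 := by
      rw [hrt]
      exact hbd 0
    have hfar : ∀ j : Fin 7, S (j, t) = true → H973.fin S t (toE k c p) j →
        4 * (‖q₀‖ + 4) ≤ ‖Xp S (toE k c p) (j, t)‖ := by
      intro j hs hj
      have h1 : (toE k c p).2 (j, t) ≠ 0 := fun h => hj ⟨hs, h⟩
      have h2 := hp.zone (j, t) (hp.far _ hs)
      rw [if_pos hs] at h2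
      have h3 : Xp S (toE k c p) (j, t) = ((toE k c p).2 (j, t))⁻¹ := by
        unfold Xp
        rw [if_pos hs]
      have h4 : ‖(toE k c p).2 (j, t)‖ ≤ R₀⁻¹ := h2
      have h5 : 0 < ‖(toE k c p).2 (j, t)‖ := norm_pos_iff.2 h1
      have h6 : 0 < R₀ := lt_of_lt_of_le (by positivity) hR₀
      have h7 : R₀ ≤ ‖(toE k c p).2 (j, t)‖⁻¹ := by
        rw [le_inv_comm₀ h6 h5]
        exact h4
      rw [h3, norm_inv]
      linarith
    have hcs : ∀ j : L, R.nk j = false → S j = false →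
        c / 4 ≤ ‖(toE k c p).2 j - qb k p k.castSucc‖ := by
      intro j hj hs
      have h2 := hp.zone j hj
      rw [if_neg (by rw [hs]; simp)] at h2
      have e3 : R.ctr (toSp c p) = qb k p k.castSucc := (H828.qb_castSucc k p).symm
      rw [e3] at h2
      exact h2.2
    have hdist : c / 16 ≤ ‖Xp S (toE k c p) (a, t) - qb k p k.castSucc‖ ∧
        c / 16 ≤ ‖Xp S (toE k c p) (b, t) - qb k p k.castSucc‖ := by
      have tri : ∀ x : ℂ, ‖x‖ - (‖q₀‖ + 1) ≤ ‖x - qb k p k.castSucc‖ := fun x => by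
        have := norm_sub_norm_le x (qb k p k.castSucc)
        linarith
      have t1 := tri (Xp S (toE k c p) (a, t))
      have t2 := tri (Xp S (toE k c p) (b, t))
      have u1 := norm_sub_le (Xp S (toE k c p) (a, t)) ((toE k c p).1 0)
      have u2 := norm_sub_norm_le (Xp S (toE k c p) (a, t)) (Xp S (toE k c p) (b, t))
      have u3 := norm_sub_norm_le (Xp S (toE k c p) (b, t)) (Xp S (toE k c p) (a, t))
      rw [norm_sub_rev] at u3
      rcases Bool.eq_false_or_eq_true (S (a, t)) with hSa | hSa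
      · have h1 := hfar a hSa ha
        exact ⟨by linarith, by linarith⟩
      rcases Bool.eq_false_or_eq_true (S (b, t)) with hSb | hSb
      · have h1 := hfar b hSb hb
        exact ⟨by linarith, by linarith⟩
      have exa : Xp S (toE k c p) (a, t) = (toE k c p).2 (a, t) := by
        unfold Xp
        rw [if_neg (by rw [hSa]; simp)]
      have exb : Xp S (toE k c p) (b, t) = (toE k c p).2 (b, t) := by
        unfold Xp
        rw [if_neg (by rw [hSb]; simp)]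
      have hNd : ‖Xp S (toE k c p) (a, t) - Xp S (toE k c p) (b, t)‖ ≤
          rad a * Hs (toE k c p).1 (Xp S (toE k c p) (a, t)) := hN.2.le
      rw [exa, exb] at hNd
      rw [exa] at hoffa
      rw [exa, exb]
      rcases Bool.eq_false_or_eq_true (R.nk (a, t)) with hna | hna
      · have hnb : R.nk (b, t) = false := by
          rcases Bool.eq_false_or_eq_true (R.nk (b, t)) with h | h
          · exact absurd ⟨hna, h⟩ hnn
          · exact h
        have h1 := hcs _ hnb hSb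
        have h2 := H752.neck_core hbi hc hdc
          (show (toE k c p).2 (a, t) = qb k p k.castSucc + (Xj c p (a, t) + Yj c p (a, t)) / 2
            from toE_neck k c p hna) hoffa (rad_pos _).le (hrad.trans (by norm_num)) hNd h1
        exact ⟨by linarith [h2.1], by linarith⟩
      · have h1 := hcs _ hna hSa
        refine ⟨by linarith, ?_⟩
        rcases Bool.eq_false_or_eq_true (R.nk (b, t)) with hnb | hnb
        · have h2 := H752.core_neck hbi hc hdc
            (show (toE k c p).2 (b, t) = qb k p k.castSucc + (Xj c p (b, t) + Yj c p (b, t)) / 2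
              from toE_neck k c p hnb) hoffa (rad_pos _).le (hrad.trans (by norm_num)) hNd h1
          linarith [h2.1]
        · linarith [hcs _ hnb hSb]
    have hle := le_abs_self ρR
    have fa : ‖Xp S (toE k c p) (a, t)‖ ≤ 2 * |ρR| := hA.far.trans (by linarith)
    have fb : ‖Xp S (toE k c p) (b, t)‖ ≤ 2 * |ρR| := hA'.far.trans (by linarith)
    have La := H2 R m S p hp.inr hy2 hA2 (a, t) fa hdist.1 hA.oth
    have Lb := H2 R m S p hp.inr hy2 hA2 (b, t) fb hdist.2 hA'.oth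
    refine PairX.mono hy (pairX_core (W := 1 + (4 * |ρR| + 2 * (‖q₀‖ + 2))) hC2.le (by linarith [abs_nonneg ρR])
      hp.inr hy La Lb ?_) (le_max_right _ _)
    unfold wt1
    rw [H828.yl_zh hc]
    have e1 : Xp S (toE k c p) (a, t) - qb k p k.castSucc - zh c p =
        Xp S (toE k c p) (a, t) - bd k (qb k p) (zh c p) k.succ := by rw [bd_succ]; ring
    have e2 : Xp S (toE k c p) (a, t) - qb k p k.castSucc + zh c p =
        Xp S (toE k c p) (a, t) - bd k (qb k p) (zh c p) k.castSucc := by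
      rw [bd_castSucc]; ring
    rw [e1, e2]
    have h1 := norm_sub_le (Xp S (toE k c p) (a, t)) (bd k (qb k p) (zh c p) k.succ)
    have h2 := norm_sub_le (Xp S (toE k c p) (a, t)) (bd k (qb k p) (zh c p) k.castSucc)
    have h3 := hbd k.succ
    have h4 := hbd k.castSucc
    have h5 : (p.2.2.1 ())⁻¹ ≤ 1 := inv_le_one_of_one_le₀ hy
    linarith

end Vale.Agent.P273.H668
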