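import Vale.Agent.P273.H668.PairC
import Vale.Agent.P273.H357.NeckC
import Vale.Agent.P273.H752.Comp1
import Vale.Agent.P273.H865.Zon1
import Vale.Agent.P273.H205.Brd1

/-!
# P273, crew ASY1 (helper668): the logarithmic derivatives of a near pair of marks

`pairLog`: for two marks of one type near each other, the first one active, in every direction of the
chart of a one-node region.
-/

open Set Filter Topology Metric
open Vale.Agent.P273.H562 Vale.Agent.P273.H681 Vale.Agent.P273.H95 Vale.Agent.P273.H879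
open Vale.Agent.P273.H730 Vale.Agent.P273.H973
open Vale.Agent.P273.H578 (Pt Nr rad rad_le rad_pos Brd PX cX pX Off Hs)
open Vale.Agent.P273.H865 (ActP bd_castSucc bd_succ bd_other)
open Vale.Agent.P273.H828 (qb Xj Yj lX lY lB lam NE toE_roots toE_neck toE_core Xj_mul_Yj cst_nn
  norm_Xj_le norm_Yj_le)

noncomputable section

namespace Vale.Agent.P273.H668

variable {R : Region1} {m : Fin (R.n + 1)}

/-- data of a near pair of marks -/
def PairD (k : Fin 5) (c : ℝ) (p : Co1 R m) (a b : L) (C : ℝ) : Prop := ∀ d : Dir1 R m,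
  (LP k c p (evec p d) a 0 C ∧ LP k c p (evec p d) b 0 C) ∧
  (¬ NE d → ∃ ζ, LP k c p (evec p d) a ζ (C * (p.2.2.1 ())⁻¹) ∧
    LP k c p (evec p d) b ζ (C * (p.2.2.1 ())⁻¹)) ∧
  ∃ (ζ : ℂ) (ρ : ℝ), 0 ≤ ρ ∧ LP k c p (evec p d) a ζ ρ ∧ LP k c p (evec p d) b ζ ρ ∧
    ρ * wt1 k c (qb k p) (zh c p) ((toE k c p).2 a) ≤ C * cst p d

theorem PairD.mono {k : Fin 5} {c : ℝ} {p : Co1 R m} {a b : L} {C C' : ℝ}
    (hy : 1 ≤ p.2.2.1 ()) (h : PairD k c p a b C) (hC : C ≤ C') : PairD k c p a b C' := by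
  intro d
  have h0 := cst_nn hy d
  have h1 : 0 ≤ (p.2.2.1 ())⁻¹ := inv_nonneg.2 (by linarith)
  obtain ⟨⟨a1, a2⟩, a3, ζ, ρ, a4, a5, a6, a7⟩ := h d
  refine ⟨⟨a1.mono hC, a2.mono hC⟩, fun hd => ?_, ζ, ρ, a4, a5, a6,
    a7.trans (mul_le_mul_of_nonneg_right hC h0)⟩
  obtain ⟨ζ, b1, b2⟩ := a3 hd
  exact ⟨ζ, b1.mono (mul_le_mul_of_nonneg_right hC h1),
    b2.mono (mul_le_mul_of_nonneg_right hC h1)⟩

theorem cst_le_one' {p : Co1 R m} (hp : (wr R m).Inr p) (hy : 1 ≤ p.2.2.1 ()) (d : Dir1 R m) :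
    cst p d ≤ 1 := by
  have h1 : (p.2.2.1 ())⁻¹ ≤ 1 := inv_le_one_of_one_le₀ hy
  cases d with
  | u f =>
    show Real.sqrt (max (Real.exp (-p.1 f)) (p.2.2.1 ())⁻¹) ≤ 1
    exact Real.sqrt_le_one.2 (max_le (Real.exp_le_one_iff.2 (neg_nonpos.2 (hp.1 f))) h1)
  | ph f =>
    show Real.sqrt (max (Real.exp (-p.1 f)) (p.2.2.1 ())⁻¹) ≤ 1
    exact Real.sqrt_le_one.2 (max_le (Real.exp_le_one_iff.2 (neg_nonpos.2 (hp.1 f))) h1)
  | y u => exact h1
  | al u =>
    show Real.sqrt (p.2.2.1 ())⁻¹ ≤ 1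
    exact Real.sqrt_le_one.2 h1
  | re a => exact le_rfl
  | im a => exact le_rfl

/-- from the bounds away from the pair -/
theorem pairD_core {k : Fin 5} {c : ℝ} {p : Co1 R m} {a b : L} {C W : ℝ} (hC : 0 ≤ C)
    (hW : 1 ≤ W) (hp : (wr R m).Inr p) (hy : 1 ≤ p.2.2.1 ())
    (ha : ∀ d : Dir1 R m, LP k c p (evec p d) a 0 (C * cst p d))
    (hb : ∀ d : Dir1 R m, LP k c p (evec p d) b 0 (C * cst p d))
    (hw : wt1 k c (qb k p) (zh c p) ((toE k c p).2 a) ≤ W) : PairD k c p a b (C * W) := by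
  intro d
  have h0 := cst_nn hy d
  have h1 := cst_le_one' hp hy d
  have e1 : C * cst p d ≤ C * W := mul_le_mul_of_nonneg_left (h1.trans hW) hC
  refine ⟨⟨(ha d).mono e1, (hb d).mono e1⟩, fun hd => ⟨0, ?_⟩, 0, C * cst p d,
    mul_nonneg hC h0, ha d, hb d, ?_⟩
  · cases d with
    | y u =>
      have e2 : cst p (.y u) = (p.2.2.1 ())⁻¹ := rfl
      have h3 : 0 ≤ (p.2.2.1 ())⁻¹ := inv_nonneg.2 (by linarith)
      have e3 : C * cst p (.y u) ≤ C * W * (p.2.2.1 ())⁻¹ := by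
        rw [e2]
        exact mul_le_mul_of_nonneg_right (le_mul_of_one_le_right hC hW) h3
      exact ⟨(ha _).mono e3, (hb _).mono e3⟩
    | _ => exact absurd (by simp [NE]) hd
  · calc C * cst p d * wt1 k c (qb k p) (zh c p) ((toE k c p).2 a) ≤ C * cst p d * W :=
          mul_le_mul_of_nonneg_left hw (mul_nonneg hC h0)
      _ = C * W * cst p d := by ring

/-- **the logarithmic derivatives of a near pair of marks** -/
theorem pairLog (k : Fin 5) {q₀ : C6} (hq₀ : q₀ ∈ H828.XD k) {r Rz : ℝ} (hr : 0 < r)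
    (hRz : 0 < Rz) : ∃ U ∈ 𝓝 q₀, ∃ c₀ > 0, ∀ c, 0 < c → c ≤ c₀ → ∃ M₀ C : ℝ, 0 < M₀ ∧ 0 < C ∧
    ∀ R₀ > 2 * Rz, ∀ (R : Region1) (m : Fin (R.n + 1)) (S : L → Bool) (p : Co1 R m) (g : ℂ)
      (v : L → ℂ), InReg k (U ∩ H828.XD k) c R₀ M₀ S p g v → (toE k c p).1 ∈ XX →
    (∀ l, ‖bd k (qb k p) (zh c p) l‖ ≤ Rz) → ∀ (t : Bool) (a b : Fin 7),
    H973.fin S t (toE k c p) a → H973.fin S t (toE k c p) b →
    Nr (rad a) (toE k c p).1 (PP S t (toE k c p) (R.sht (toSp c p) g v) a)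
      (PP S t (toE k c p) (R.sht (toSp c p) g v) b) →
    ActP (29 / 256) (29 / 32 * r) (35 / 32 * Rz) k (qb k p) (zh c p)
      (PP S t (toE k c p) (R.sht (toSp c p) g v) a).1 →
    S (a, t) = false ∧ S (b, t) = false ∧ PairD k c p (a, t) (b, t) C := by
  obtain ⟨U1, hU1, c1, hc1, H1⟩ := H581.neckL k q₀ hq₀
  obtain ⟨U2, hU2, H2⟩ := coreP k hq₀ (show 0 < r / 2 by linarith) (2 * Rz)
  obtain ⟨U3, hU3, dl, hdl, hdl1, H3⟩ := H581.exists_far hq₀
  refine ⟨U1 ∩ (U2 ∩ U3), inter_mem hU1 (inter_mem hU2 hU3), min (min 1 c1) (dl / 32),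
    lt_min (lt_min one_pos hc1) (by positivity), fun c hc hcc => ?_⟩
  have hc_1 : c ≤ 1 := hcc.trans ((min_le_left _ _).trans (min_le_left _ _))
  have hc_c1 : c ≤ c1 := hcc.trans ((min_le_left _ _).trans (min_le_right _ _))
  have hc_dl : c ≤ dl / 32 := hcc.trans (min_le_right _ _)
  obtain ⟨M1, B, hM1, hB, H1⟩ := H1 c hc hc_c1
  obtain ⟨M2, C2, hM2, hC2, H2⟩ := H2 c hc hc_1
  refine ⟨max M1 M2, max ((12 * B + 1) * 30 + (60 * B + 5) * 30 + 3 * B) (C2 * (1 + 6 * Rz)),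
    lt_max_of_lt_left hM1, lt_max_of_lt_left (by positivity), ?_⟩
  intro R₀ hR₀ R m S p g v hp hXX hbd t a b ha hb hN hA
  have hy2 : M2 ≤ p.2.2.1 () := (le_max_right _ _).trans hp.y
  have hy : 1 ≤ p.2.2.1 () := hM2.trans hy2
  have hy0 : 0 < p.2.2.1 () := by linarith
  have hq : qb k p ∈ (U1 ∩ (U2 ∩ U3)) ∩ H828.XD k := hp.base
  have hK : (U1 ∩ (U2 ∩ U3)) ∩ H828.XD k ⊆ H828.XD k := fun q hq => hq.2
  have hOn := H205.onC_inReg hK hp
  have hbdm : bd k (qb k p) (zh c p) ∈ XX := by rw [← toE_roots]; exact hXX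
  have hzh : zh c p ≠ 0 := H205.zh_ne hc p
  have hlen : ∀ M, M ≤ p.2.2.1 () → M ≤ yl c (zh c p) := fun M hM => by
    rw [H828.yl_zh hc]; exact hM
  have hA1 : Adm k U1 c M1 (qb k p) (zh c p) :=
    ⟨hq.1.1, hq.2, hzh, hlen _ ((le_max_left _ _).trans hp.y), hbdm⟩
  have hA2 : Adm k U2 c M2 (qb k p) (zh c p) := ⟨hq.1.2.1, hq.2, hzh, hlen _ hy2, hbdm⟩
  have hPa : Pt (toE k c p).1 (PP S t (toE k c p) (R.sht (toSp c p) g v) a) := pt_PP hOn ha
  have hPb : Pt (toE k c p).1 (PP S t (toE k c p) (R.sht (toSp c p) g v) b) := pt_PP hOn hb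
  have hrad : rad a ≤ 1 / 256 := rad_le _
  have hrt : (toE k c p).1 = bd k (qb k p) (zh c p) := toE_roots k c p
  have hA' : ActP (1 / 10) (r / 2) (2 * Rz) k (qb k p) (zh c p)
      (PP S t (toE k c p) (R.sht (toSp c p) g v) b).1 := by
    rw [hrt] at hPa hN
    exact ActP.near hrad (hbd 0) hPa hA hN
  -- the marks are in the chart `x`
  have hchart : ∀ j : Fin 7, H973.fin S t (toE k c p) j →
      ‖(PP S t (toE k c p) (R.sht (toSp c p) g v) j).1‖ ≤ 2 * Rz → S (j, t) = false := by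
    intro j hj hle
    rcases Bool.eq_false_or_eq_true (S (j, t)) with hs | hs
    · exfalso
      have h1 : (toE k c p).2 (j, t) ≠ 0 := fun h => hj ⟨hs, h⟩
      have h2 := hp.zone (j, t) (hp.far _ hs)
      rw [if_pos hs] at h2
      have h3 : (PP S t (toE k c p) (R.sht (toSp c p) g v) j).1 = ((toE k c p).2 (j, t))⁻¹ := by
        unfold PP Xp
        rw [if_pos hs]
      rw [h3, norm_inv] at hle
      have h4 : ‖(toE k c p).2 (j, t)‖ ≤ R₀⁻¹ := h2
      have h5 : 0 < ‖(toE k c p).2 (j, t)‖ := norm_pos_iff.2 h1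
      have h6 : 0 < R₀ := by linarith
      have h7 : R₀ ≤ ‖(toE k c p).2 (j, t)‖⁻¹ := by
        rw [le_inv_comm₀ h6 h5]
        exact h4
      linarith
    · exact hs
  have hSa : S (a, t) = false := hchart a ha (hA.far.trans (by linarith))
  have hSb : S (b, t) = false := hchart b hb hA'.far
  have ePa : PP S t (toE k c p) (R.sht (toSp c p) g v) a =
      ((toE k c p).2 (a, t), R.sht (toSp c p) g v (a, t)) := by
    unfold PP Xp Yp
    rw [if_neg (by rw [hSa]; simp), if_neg (by rw [hSa]; simp)]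
  have ePb : PP S t (toE k c p) (R.sht (toSp c p) g v) b =
      ((toE k c p).2 (b, t), R.sht (toSp c p) g v (b, t)) := by
    unfold PP Xp Yp
    rw [if_neg (by rw [hSb]; simp), if_neg (by rw [hSb]; simp)]
  refine ⟨hSa, hSb, ?_⟩
  rw [ePa] at hA hPa hN
  rw [ePb] at hA' hPb hN
  have hoffa : ∀ l, (toE k c p).2 (a, t) ≠ (toE k c p).1 l := hPa.off
  have hoffb : ∀ l, (toE k c p).2 (b, t) ≠ (toE k c p).1 l := hPb.off
  have hd0 : 0 < ‖zh c p‖ := norm_pos_iff.2 hzh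
  have hC0 : 0 ≤ (12 * B + 1) * 30 + (60 * B + 5) * 30 + 3 * B := by positivity
  by_cases hnn : R.nk (a, t) = true ∧ R.nk (b, t) = true
  · -- both marks in the neck
    obtain ⟨hna, hnb⟩ := hnn
    have NLof : ∀ j : L, R.nk j = true →
        ‖zh c p‖ / 10 ≤ ‖(toE k c p).2 j - (qb k p k.castSucc - zh c p)‖ →
        ‖zh c p‖ / 10 ≤ ‖(toE k c p).2 j - (qb k p k.castSucc + zh c p)‖ →
        NL k (qb k p) (zh c p) (Xj c p j) (Yj c p j) B := by
      intro j hj h1 h2 δ l1 l2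
      rw [toE_neck k c p hj] at h1 h2
      exact H1 (qb k p) (zh c p) hA1 _ _ (Xj_mul_Yj hj p) (norm_Xj_le hp.inr hy0.le hc hj)
        (norm_Yj_le hp.inr hy0.le hc hj) h1 h2 δ l1 l2
    have hNa := NLof (a, t) hna (by have := hA.a1; linarith) (by have := hA.a2; linarith)
    have hNb := NLof (b, t) hnb (by have := hA'.a1; linarith) (by have := hA'.a2; linarith)
    have hcomp : ‖Xj c p (b, t) - Xj c p (a, t)‖ ≤ ‖Xj c p (a, t)‖ / 4 ∧
        ‖Yj c p (b, t) - Yj c p (a, t)‖ ≤ ‖Yj c p (a, t)‖ / 4 := by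
      have hsh : ∀ j : L, R.nk j = true → ((toE k c p).2 j, R.sht (toSp c p) g v j) =
          (qb k p k.castSucc + (Xj c p j + Yj c p j) / 2,
            g * (∏ l : Fin 4, csq ((qb k p k.castSucc + (Xj c p j + Yj c p j) / 2 -
              R.oth (toSp c p) l) / (qb k p k.castSucc - R.oth (toSp c p) l))) *
              (Xj c p j - Yj c p j) / 2) := by
        intro j hj
        have e1 : (toE k c p).2 j = qb k p k.castSucc + (Xj c p j + Yj c p j) / 2 :=
          toE_neck k c p hj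
        have e2 : R.pos (toSp c p) j = qb k p k.castSucc + (Xj c p j + Yj c p j) / 2 := e1
        have e3 : R.ctr (toSp c p) = qb k p k.castSucc := (H828.qb_castSucc k p).symm
        refine Prod.ext e1 ?_
        show R.sht (toSp c p) g v j = _
        unfold Region1.sht
        rw [if_pos hj, e2, e3]
        rfl
      rw [hsh _ hna, hsh _ hnb, hrt] at hN
      refine H357.neckC (bd k (qb k p) (zh c p)) k.castSucc k.succ (qb k p k.castSucc) (zh c p) g
        _ _ _ _ (R.oth (toSp c p)) c (rad a) (H865.succ_ne k).symm (bd_castSucc k _ _)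
        (bd_succ k _ _) hzh hc hrad (Xj_mul_Yj hna p) (Xj_mul_Yj hnb p)
        (norm_Xj_le hp.inr hy0.le hc hna) (norm_Yj_le hp.inr hy0.le hc hna)
        (norm_Xj_le hp.inr hy0.le hc hnb) (norm_Yj_le hp.inr hy0.le hc hnb) (fun l => ?_) hN
      have h1 := H3 (qb k p) hq.1.2.2 (H752.jo k l) (H752.jo_ne1 k l) (H752.jo_ne2 k l)
      have h2 : qb k p (H752.jo k l) = R.oth (toSp c p) l :=
        H752.bs_jo (R := R) (k := k) (q := toSp c p) l
      rw [h2] at h1
      linarith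
    intro d
    have h1 := cst_nn hy d
    have h2 : 0 ≤ (p.2.2.1 ())⁻¹ := inv_nonneg.2 hy0.le
    obtain ⟨⟨a1, a2⟩, a3, ζ, ρ, a4, a5, a6, a7⟩ :=
      pairN hp.inr hy hc hc_1 hna hnb hB.le hNa hNb hcomp.1 hcomp.2 hoffb d
    have g1 : (3 * B : ℝ) ≤ max ((12 * B + 1) * 30 + (60 * B + 5) * 30 + 3 * B)
        (C2 * (1 + 6 * Rz)) := le_trans (by nlinarith) (le_max_left _ _)
    have g2 : (12 * B + 1) * 30 ≤ max ((12 * B + 1) * 30 + (60 * B + 5) * 30 + 3 * B)
        (C2 * (1 + 6 * Rz)) := le_trans (by nlinarith) (le_max_left _ _)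
    have g3 : (60 * B + 5) * 30 ≤ max ((12 * B + 1) * 30 + (60 * B + 5) * 30 + 3 * B)
        (C2 * (1 + 6 * Rz)) := le_trans (by nlinarith) (le_max_left _ _)
    refine ⟨⟨a1.mono g1, a2.mono g1⟩, fun hd => ?_, ζ, ρ, a4, a5, a6,
      a7.trans (mul_le_mul_of_nonneg_right g3 h1)⟩
    obtain ⟨ζ, b1, b2⟩ := a3 hd
    exact ⟨ζ, b1.mono (mul_le_mul_of_nonneg_right g2 h2),
      b2.mono (mul_le_mul_of_nonneg_right g2 h2)⟩
  · -- away from the pair
    have hdc : ‖zh c p‖ ≤ c := by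
      rw [H828.norm_zh hc]
      exact mul_le_of_le_one_right hc.le (Real.exp_le_one_iff.2 (by linarith))
    have hcs : ∀ j : L, R.nk j = false → S j = false →
        c / 4 ≤ ‖(toE k c p).2 j - qb k p k.castSucc‖ := by
      intro j hj hs
      have h2 := hp.zone j hj
      rw [if_neg (by rw [hs]; simp)] at h2
      have e3 : R.ctr (toSp c p) = qb k p k.castSucc := (H828.qb_castSucc k p).symm
      rw [e3] at h2
      exact h2.2
    have hbi : (toE k c p).1 k.castSucc = qb k p k.castSucc - zh c p := by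
      rw [hrt, bd_castSucc]
    have hdist : c / 16 ≤ ‖(toE k c p).2 (a, t) - qb k p k.castSucc‖ ∧
        c / 16 ≤ ‖(toE k c p).2 (b, t) - qb k p k.castSucc‖ := by
      have hNd : ‖(toE k c p).2 (a, t) - (toE k c p).2 (b, t)‖ ≤
          rad a * Hs (toE k c p).1 ((toE k c p).2 (a, t)) := hN.2.le
      rcases Bool.eq_false_or_eq_true (R.nk (a, t)) with hna | hna
      · have hnb : R.nk (b, t) = false := by
          rcases Bool.eq_false_or_eq_true (R.nk (b, t)) with h | h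
          · exact absurd ⟨hna, h⟩ hnn
          · exact h
        have h1 := hcs _ hnb hSb
        have h2 := H752.neck_core hbi hc hdc
          (show (toE k c p).2 (a, t) = qb k p k.castSucc + (Xj c p (a, t) + Yj c p (a, t)) / 2
            from toE_neck k c p hna) hoffa (rad_pos _).le (hrad.trans (by norm_num)) hNd h1
        exact ⟨by linarith [h2.1], by linarith⟩
      · have h1 := hcs _ hna hSa
        refine ⟨by linarith, ?_⟩
        rcases Bool.eq_false_or_eq_true (R.nk (b, t)) with hnb | hnb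
        · have h2 := H752.core_neck hbi hc hdc
            (show (toE k c p).2 (b, t) = qb k p k.castSucc + (Xj c p (b, t) + Yj c p (b, t)) / 2
              from toE_neck k c p hnb) hoffa (rad_pos _).le (hrad.trans (by norm_num)) hNd h1
          linarith [h2.1]
        · linarith [hcs _ hnb hSb]
    have ra : ∀ l : Fin 6, l ≠ k.castSucc → l ≠ k.succ →
        r / 2 ≤ ‖(toE k c p).2 (a, t) - qb k p l‖ := fun l h1 h2 =>
      le_trans (by linarith) (hA.oth l h1 h2)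
    have fa : ‖(toE k c p).2 (a, t)‖ ≤ 2 * Rz := hA.far.trans (by linarith)
    have La := H2 R m p hp.inr hy2 hA2 (a, t) fa hdist.1 ra
    have Lb := H2 R m p hp.inr hy2 hA2 (b, t) hA'.far hdist.2 hA'.oth
    refine PairD.mono hy (pairD_core (W := 1 + 6 * Rz) hC2.le (by linarith) hp.inr hy La Lb ?_)
      (le_max_right _ _)
    unfold wt1
    rw [H828.yl_zh hc]
    have e1 : (toE k c p).2 (a, t) - qb k p k.castSucc - zh c p =
        (toE k c p).2 (a, t) - bd k (qb k p) (zh c p) k.succ := by rw [bd_succ]; ring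
    have e2 : (toE k c p).2 (a, t) - qb k p k.castSucc + zh c p =
        (toE k c p).2 (a, t) - bd k (qb k p) (zh c p) k.castSucc := by rw [bd_castSucc]; ring
    rw [e1, e2]
    have h1 := norm_sub_le ((toE k c p).2 (a, t)) (bd k (qb k p) (zh c p) k.succ)
    have h2 := norm_sub_le ((toE k c p).2 (a, t)) (bd k (qb k p) (zh c p) k.castSucc)
    have h3 := hbd k.succ
    have h4 := hbd k.castSucc
    have h5 : (p.2.2.1 ())⁻¹ ≤ 1 := inv_le_one_of_one_le₀ hy
    linarith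

end Vale.Agent.P273.H668
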