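import Vale.Agent.P273.H668.Log1
import Vale.Agent.P273.H828.Dir4

/-!
# P273, crew ASY1 (helper668): two comparable marks in the neck, all directions of the chart

`LP k c p w j ζ ρ`: the mark `j` has the logarithmic derivative `ζ` up to `ρ` in the direction `w`.
-/

open Set Filter Topology Metric
open Vale.Agent.P273.H562 Vale.Agent.P273.H681 Vale.Agent.P273.H95 Vale.Agent.P273.H879
open Vale.Agent.P273.H730
open Vale.Agent.P273.H828 (qb Xj Yj lX lY lB lam NE toE_roots toE_neck fderiv_neck Xj_mul_Yj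
  cst_nn X_T1 Y_T1 norm_qb_evec_le norm_lX_evec_le norm_lY_evec_le norm_Xj_le norm_Yj_le
  lX_sub lY_sub lB_cost ratio_X Xj_ne Yj_ne lX_add_lY lX_eul lY_eul inv_le_sqrt' sqrt_inv_le_cst)

noncomputable section

namespace Vale.Agent.P273.H668

variable {R : Region1} {m : Fin (R.n + 1)} {p : Co1 R m}

/-- the mark `j` has the logarithmic derivative `ζ` up to `ρ` in the direction `w` -/
def LP (k : Fin 5) (c : ℝ) (p w : Co1 R m) (j : L) (ζ : ℂ) (ρ : ℝ) : Prop :=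
  LogP (toE k c p).1 (fderiv ℝ (toE k c) p w).1 ((toE k c p).2 j)
    ((fderiv ℝ (toE k c) p w).2 j) ζ ρ

theorem LP.mono {k : Fin 5} {c : ℝ} {w : Co1 R m} {j : L} {ζ : ℂ} {ρ ρ' : ℝ}
    (h : LP k c p w j ζ ρ) (hρ : ρ ≤ ρ') : LP k c p w j ζ ρ' := logP_mono h hρ

theorem lp_neck {k : Fin 5} {c : ℝ} {w : Co1 R m} {j : L} (hj : R.nk j = true) {ζ : ℂ} {ρ : ℝ}
    (h : LogP (bd k (qb k p) (zh c p))
      (bw k (qb k w) (zh c p) ((lX R m (R.rk j) w + lY R m (R.rk j) w) / 2))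
      (xn k (qb k p) (Xj c p j) (Yj c p j))
      (nv k (qb k w) (zh c p) (Xj c p j) (Yj c p j) (lX R m (R.rk j) w) (lY R m (R.rk j) w)).2
      ζ ρ) : LP k c p w j ζ ρ := by
  have e := fderiv_neck k c p w hj
  have e1 : (fderiv ℝ (toE k c) p w).1 =
      bw k (qb k w) (zh c p) ((lX R m (R.rk j) w + lY R m (R.rk j) w) / 2) :=
    congrArg Prod.fst e
  have e2 : (fderiv ℝ (toE k c) p w).2 j =
      (nv k (qb k w) (zh c p) (Xj c p j) (Yj c p j) (lX R m (R.rk j) w) (lY R m (R.rk j) w)).2 :=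
    congrArg Prod.snd e
  unfold LP
  rw [toE_roots, toE_neck k c p hj, e1, e2]
  exact h

/-! ### numbers -/

theorem inv_le_cst' (hy : 1 ≤ p.2.2.1 ()) (d : Dir1 R m) : (p.2.2.1 ())⁻¹ ≤ cst p d := by
  by_cases h : NE d
  · exact (inv_le_sqrt' hy).trans (sqrt_inv_le_cst hy h)
  · cases d with
    | y u => exact le_rfl
    | _ => exact absurd (by simp [NE]) h

theorem norm_zh_le {c : ℝ} (hc : 0 < c) (hc1 : c ≤ 1) (hy : 1 ≤ p.2.2.1 ()) (d : Dir1 R m) :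
    ‖zh c p‖ ≤ 2 * cst p d := by
  have hy0 : 0 < p.2.2.1 () := by linarith
  rw [H828.norm_zh hc]
  have h1 := Real.add_one_le_exp (p.2.2.1 () / 2)
  have h2 : Real.exp (-p.2.2.1 () / 2) ≤ 2 * (p.2.2.1 ())⁻¹ := by
    rw [neg_div, Real.exp_neg, show 2 * (p.2.2.1 ())⁻¹ = (p.2.2.1 () / 2)⁻¹ by rw [inv_div]; rfl]
    exact inv_anti₀ (by positivity) (by linarith)
  have h3 := inv_le_cst' hy d
  calc c * Real.exp (-p.2.2.1 () / 2) ≤ 1 * Real.exp (-p.2.2.1 () / 2) :=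
        mul_le_mul_of_nonneg_right hc1 (Real.exp_pos _).le
    _ ≤ 2 * cst p d := by linarith

/-- the difference of two logarithms against the geometric mean -/
theorem log_sub_mul_le {x y a : ℝ} (hx : 0 < x) (hy : 0 < y) (ha : 0 < a) (h : a ^ 2 = x * y) :
    |Real.log y - Real.log x| * a ≤ 2 * max x y := by
  have key : ∀ u v : ℝ, 0 < u → 0 < v → a ^ 2 = u * v → u ≤ v →
      |Real.log v - Real.log u| * a ≤ 2 * v := by
    intro u v hu hv h huv
    have h1 : 0 ≤ Real.log v - Real.log u := sub_nonneg.2 (Real.log_le_log hu huv)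
    have h2 : Real.log u = 2 * Real.log a - Real.log v := by
      have := congrArg Real.log h
      rw [Real.log_pow, Real.log_mul hu.ne' hv.ne'] at this
      push_cast at this
      linarith
    have h3 : Real.log v - Real.log a ≤ v / a := by
      rw [← Real.log_div hv.ne' ha.ne']
      have := Real.log_le_sub_one_of_pos (div_pos hv ha)
      linarith
    rw [abs_of_nonneg h1, h2]
    calc (Real.log v - (2 * Real.log a - Real.log v)) * a
        = 2 * (Real.log v - Real.log a) * a := by ring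
      _ ≤ 2 * (v / a) * a := by gcongr
      _ = 2 * v := by field_simp
  rcases le_total x y with hxy | hxy
  · rw [max_eq_right hxy]
    exact key x y hx hy h hxy
  · rw [max_eq_left hxy, abs_sub_comm]
    exact key y x hy hx (by rw [h, mul_comm]) hxy

/-- the weight of a neck mark -/
theorem wt1_le {k : Fin 5} {q : C6} {c : ℝ} {d X Y : ℂ} (h : X * Y = d ^ 2) :
    wt1 k c q d (xn k q X Y) ≤ (yl c d)⁻¹ + 2 * (‖X‖ + ‖Y‖) := by
  have h1 : ‖d‖ ^ 2 = ‖X‖ * ‖Y‖ := by rw [← norm_pow, ← h, norm_mul]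
  have h2 : ‖d‖ ≤ (‖X‖ + ‖Y‖) / 2 := by
    refine le_of_sq_le_sq ?_ (by positivity)
    rw [h1]
    nlinarith [sq_nonneg (‖X‖ - ‖Y‖)]
  have h3 : ‖(X + Y) / 2‖ ≤ (‖X‖ + ‖Y‖) / 2 := by
    rw [norm_div, Complex.norm_ofNat]
    have := norm_add_le X Y
    linarith
  have e1 : xn k q X Y - q k.castSucc - d = (X + Y) / 2 - d := by unfold xn; ring
  have e2 : xn k q X Y - q k.castSucc + d = (X + Y) / 2 + d := by unfold xn; ring
  unfold wt1
  rw [e1, e2]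
  have h4 := norm_sub_le ((X + Y) / 2) d
  have h5 := norm_add_le ((X + Y) / 2) d
  linarith

/-! ### two comparable marks -/

/-- the difference of the logarithmic derivatives costs at most `30 cst` -/
theorem diff_cost (hp : (wr R m).Inr p) (hy : 1 ≤ p.2.2.1 ()) {c : ℝ} (hc : 0 < c) {i j : L}
    (hi : R.nk i = true) (hj : R.nk j = true) (h : ‖Xj c p j - Xj c p i‖ ≤ ‖Xj c p i‖ / 4)
    (d : Dir1 R m) :
    ‖lX R m (R.rk j) (evec p d) - lX R m (R.rk i) (evec p d)‖ ≤ 30 * cst p d ∧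
    ‖lY R m (R.rk j) (evec p d) - lY R m (R.rk i) (evec p d)‖ ≤ 30 * cst p d := by
  have hXi : 0 < ‖Xj c p i‖ := norm_pos_iff.2 (Xj_ne hc hi p)
  have hXj : 0 < ‖Xj c p j‖ := norm_pos_iff.2 (Xj_ne hc hj p)
  have a1 := norm_sub_norm_le (Xj c p i) (Xj c p j)
  have a2 := norm_sub_norm_le (Xj c p j) (Xj c p i)
  rw [norm_sub_rev] at a1
  have e30 : (15 : ℝ) / (1 / 2) = 30 := by norm_num
  rcases le_total (R.rk i) (R.rk j) with hij | hij
  · have h1 : (1 / 2 : ℝ) ≤ ‖Complex.exp (lB R m (R.rk i) (R.rk j) p)‖ := by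
      rw [ratio_X hc hi hj hij, norm_div, le_div_iff₀ hXi]
      linarith
    have h2 := lB_cost hp hy (by norm_num : (0 : ℝ) < 1 / 2) h1 d
    rw [e30] at h2
    refine ⟨?_, ?_⟩
    · rw [lX_sub hij]
      exact h2
    · rw [norm_sub_rev, lY_sub hij]
      exact h2
  · have h1 : (1 / 2 : ℝ) ≤ ‖Complex.exp (lB R m (R.rk j) (R.rk i) p)‖ := by
      rw [ratio_X hc hj hi hij, norm_div, le_div_iff₀ hXj]
      linarith
    have h2 := lB_cost hp hy (by norm_num : (0 : ℝ) < 1 / 2) h1 d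
    rw [e30] at h2
    refine ⟨?_, ?_⟩
    · rw [norm_sub_rev, lX_sub hij]
      exact h2
    · rw [lY_sub hij]
      exact h2

/-- size times logarithmic derivative -/
theorem mul_lX_le (hp : (wr R m).Inr p) (hy : 1 ≤ p.2.2.1 ()) {c : ℝ} (hc : 0 < c) (hc1 : c ≤ 1)
    {j : L} (hj : R.nk j = true) (d : Dir1 R m) :
    ‖Xj c p j‖ * ‖lX R m (R.rk j) (evec p d)‖ ≤ 30 * cst p d ∧
    ‖Yj c p j‖ * ‖lY R m (R.rk j) (evec p d)‖ ≤ 30 * cst p d := by
  have h0 := cst_nn hy d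
  have hyi : 0 ≤ (p.2.2.1 ())⁻¹ := inv_nonneg.2 (by linarith)
  have h1 := X_T1 hp hy hc hj d
  have h2 := Y_T1 hp hy hc hj d
  have h3 : (15 * c + 1) * cst p d ≤ 30 * cst p d :=
    mul_le_mul_of_nonneg_right (by linarith) h0
  have h4 := mul_nonneg hyi (norm_nonneg (lX R m (R.rk j) (evec p d)))
  have h5 := mul_nonneg hyi (norm_nonneg (lY R m (R.rk j) (evec p d)))
  rw [add_mul] at h1 h2
  constructor <;> linarith

theorem pairHyp_reg (hp : (wr R m).Inr p) (hy : 1 ≤ p.2.2.1 ()) {c : ℝ} (hc : 0 < c) (hc1 : c ≤ 1)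
    {k : Fin 5} {i j : L} (hi : R.nk i = true) (hj : R.nk j = true) {B : ℝ} (hB : 0 ≤ B)
    (hN : NL k (qb k p) (zh c p) (Xj c p i) (Yj c p i) B)
    (hN' : NL k (qb k p) (zh c p) (Xj c p j) (Yj c p j) B)
    (hX : ‖Xj c p j - Xj c p i‖ ≤ ‖Xj c p i‖ / 4) (hY : ‖Yj c p j - Yj c p i‖ ≤ ‖Yj c p i‖ / 4)
    (hoff : ∀ l, (toE k c p).2 j ≠ (toE k c p).1 l) (d : Dir1 R m) :
    PairHyp k (qb k p) (zh c p) (Xj c p i) (Yj c p i) (Xj c p j) (Yj c p j) B (30 * cst p d)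
      (p.2.2.1 ())⁻¹ (qb k (evec p d)) (lX R m (R.rk i) (evec p d)) (lY R m (R.rk i) (evec p d))
      (lX R m (R.rk j) (evec p d)) (lY R m (R.rk j) (evec p d)) := by
  have hy0 : 0 < p.2.2.1 () := by linarith
  have h0 := cst_nn hy d
  have h1 := inv_le_cst' hy d
  have h2 := norm_zh_le hc hc1 hy d
  have h3 := norm_qb_evec_le k hy d
  have h4 := diff_cost hp hy hc hi hj hX d
  have h5 := mul_lX_le hp hy hc hc1 hi d
  have h6 := mul_lX_le hp hy hc hc1 hj d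
  refine ⟨hN, hN', hB, ?_, Xj_mul_Yj hi p, Xj_mul_Yj hj p, (norm_Xj_le hp hy0.le hc hi).trans hc1,
    (norm_Yj_le hp hy0.le hc hi).trans hc1, hX, hY, ?_, ?_, by linarith, h5.1, h5.2, h6.1, h6.2,
    norm_lX_evec_le hp hy0 _ d, norm_lY_evec_le hp hy0 _ d, norm_lX_evec_le hp hy0 _ d,
    norm_lY_evec_le hp hy0 _ d, h4.1, h4.2, by linarith, inv_nonneg.2 hy0.le, by linarith,
    inv_le_one_of_one_le₀ hy⟩
  · rw [← norm_pos_iff, H828.norm_zh hc]
    positivity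
  · intro l
    rw [← toE_roots, ← toE_neck k c p hj]
    exact hoff l
  · rw [lX_add_lY, lX_add_lY]

/-- **two comparable marks in the neck** -/
theorem pairN (hp : (wr R m).Inr p) (hy : 1 ≤ p.2.2.1 ()) {c : ℝ} (hc : 0 < c) (hc1 : c ≤ 1)
    {k : Fin 5} {i j : L} (hi : R.nk i = true) (hj : R.nk j = true) {B : ℝ} (hB : 0 ≤ B)
    (hN : NL k (qb k p) (zh c p) (Xj c p i) (Yj c p i) B)
    (hN' : NL k (qb k p) (zh c p) (Xj c p j) (Yj c p j) B)
    (hX : ‖Xj c p j - Xj c p i‖ ≤ ‖Xj c p i‖ / 4) (hY : ‖Yj c p j - Yj c p i‖ ≤ ‖Yj c p i‖ / 4)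
    (hoff : ∀ l, (toE k c p).2 j ≠ (toE k c p).1 l) (d : Dir1 R m) :
    (LP k c p (evec p d) i 0 (3 * B) ∧ LP k c p (evec p d) j 0 (3 * B)) ∧
    (¬ NE d → ∃ ζ, LP k c p (evec p d) i ζ ((12 * B + 1) * 30 * (p.2.2.1 ())⁻¹) ∧
      LP k c p (evec p d) j ζ ((12 * B + 1) * 30 * (p.2.2.1 ())⁻¹)) ∧
    ∃ (ζ : ℂ) (ρ : ℝ), 0 ≤ ρ ∧ LP k c p (evec p d) i ζ ρ ∧ LP k c p (evec p d) j ζ ρ ∧
      ρ * wt1 k c (qb k p) (zh c p) ((toE k c p).2 i) ≤ (60 * B + 5) * 30 * cst p d := by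
  have hy0 : 0 < p.2.2.1 () := by linarith
  have H := pairHyp_reg hp hy hc hc1 hi hj hB hN hN' hX hY hoff d
  have hδ : ‖qb k (evec p d)‖ ≤ 1 := H828.norm_qb_evec_le_one k d
  refine ⟨⟨?_, ?_⟩, ?_, ?_⟩
  · refine lp_neck hi (logP_mono (hN _ _ _).1 ?_)
    have h3 := H.h3
    have h4 := H.h4
    rw [mul_comm 3 B]
    exact mul_le_mul_of_nonneg_left (by linarith) hB
  · refine lp_neck hj (logP_mono (hN' _ _ _).1 ?_)
    have h3 := H.h3'
    have h4 := H.h4'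
    rw [mul_comm 3 B]
    exact mul_le_mul_of_nonneg_left (by linarith) hB
  · intro hd
    cases d with
    | y u =>
      obtain ⟨ζ, ρ, h1, h2, h3, -, h5⟩ := neck_pair H
      have hc2 : cst p (.y u) = (p.2.2.1 ())⁻¹ := rfl
      have key : ∀ {j : L}, R.nk j = true →
          ‖lY R m (R.rk j) (evec p (.y u)) - lX R m (R.rk j) (evec p (.y u))‖ * ‖zh c p‖ ≤
            30 * cst p (.y u) * max ‖Xj c p j‖ ‖Yj c p j‖ := by
        intro j hj
        have hXp : 0 < ‖Xj c p j‖ := norm_pos_iff.2 (Xj_ne hc hj p)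
        have hYp : 0 < ‖Yj c p j‖ := norm_pos_iff.2 (Yj_ne hc hj p)
        have e1 : lX R m (R.rk j) (evec p (.y u)) =
            (((p.2.2.1 ())⁻¹ * Real.log (‖Xj c p j‖ / c) : ℝ) : ℂ) := lX_eul hc hj hy0.ne'
        have e2 : lY R m (R.rk j) (evec p (.y u)) =
            (((p.2.2.1 ())⁻¹ * Real.log (‖Yj c p j‖ / c) : ℝ) : ℂ) := lY_eul hc hj hy0.ne'
        have e3 : (p.2.2.1 ())⁻¹ * Real.log (‖Yj c p j‖ / c) -
            (p.2.2.1 ())⁻¹ * Real.log (‖Xj c p j‖ / c) =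
            (p.2.2.1 ())⁻¹ * (Real.log ‖Yj c p j‖ - Real.log ‖Xj c p j‖) := by
          rw [Real.log_div hYp.ne' hc.ne', Real.log_div hXp.ne' hc.ne']
          ring
        have hd0 : 0 < ‖zh c p‖ := norm_pos_iff.2 H.hd
        have h6 : ‖zh c p‖ ^ 2 = ‖Xj c p j‖ * ‖Yj c p j‖ := by
          rw [← norm_pow, ← Xj_mul_Yj hj p, norm_mul]
        have h7 := log_sub_mul_le hXp hYp hd0 h6
        rw [e1, e2, ← Complex.ofReal_sub, Complex.norm_real, Real.norm_eq_abs, e3, abs_mul,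
          abs_of_pos (inv_pos.2 hy0), hc2]
        have hm : 0 ≤ max ‖Xj c p j‖ ‖Yj c p j‖ := hXp.le.trans (le_max_left _ _)
        have h8 := mul_nonneg (inv_pos.2 hy0).le hm
        calc (p.2.2.1 ())⁻¹ * |Real.log ‖Yj c p j‖ - Real.log ‖Xj c p j‖| * ‖zh c p‖
            = (p.2.2.1 ())⁻¹ * (|Real.log ‖Yj c p j‖ - Real.log ‖Xj c p j‖| * ‖zh c p‖) := by
              ring
          _ ≤ (p.2.2.1 ())⁻¹ * (2 * max ‖Xj c p j‖ ‖Yj c p j‖) :=
              mul_le_mul_of_nonneg_left h7 (inv_pos.2 hy0).le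
          _ ≤ 30 * (p.2.2.1 ())⁻¹ * max ‖Xj c p j‖ ‖Yj c p j‖ := by nlinarith
      have h6 := h5 (key hi) (key hj)
      have h7 : ρ ≤ (12 * B + 1) * 30 * (p.2.2.1 ())⁻¹ := by
        rw [hc2] at h6
        linarith
      exact ⟨ζ, lp_neck hi (logP_mono h2 h7), lp_neck hj (logP_mono h3 h7)⟩
    | _ => exact absurd (by simp [NE]) hd
  · obtain ⟨ζ, ρ, h1, h2, h3, h4, -⟩ := neck_pair H
    refine ⟨ζ, ρ, h1, lp_neck hi h2, lp_neck hj h3, ?_⟩
    rw [toE_neck k c p hi]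
    have h5 := wt1_le (k := k) (q := qb k p) (c := c) (Xj_mul_Yj (c := c) hi p)
    rw [H828.yl_zh hc] at h5
    calc _ ≤ ρ * ((p.2.2.1 ())⁻¹ + 2 * (‖Xj c p i‖ + ‖Yj c p i‖)) :=
          mul_le_mul_of_nonneg_left h5 h1
      _ ≤ (60 * B + 5) * (30 * cst p d) := h4
      _ = _ := by ring

end Vale.Agent.P273.H668
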