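import Vale.Agent.P273.H668.PairE
import Vale.Agent.P273.H865.AsyT
import Vale.Agent.P273.H730.Glue

/-!
# P273, crew ASY1 (helper668): the clause `t1` of the bounds at one node

`clT1`: classes with equal numbers on the two roots which meet.
-/

open Set Filter Topology Metric
open Vale.Agent.P273.H562 Vale.Agent.P273.H681 Vale.Agent.P273.H95 Vale.Agent.P273.H879
open Vale.Agent.P273.H730 Vale.Agent.P273.H973 Vale.Agent.P273.H205
open Vale.Agent.P273.H578 (Pt Nr del rad rad_le rad_pos Brd PX cX pX Off Hs LogN Kn)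
open Vale.Agent.P273.H865 (ActP zones ev_fam exists_len)
open Vale.Agent.P273.H828 (qb toE_roots cst_nn)

noncomputable section

namespace Vale.Agent.P273.H668

theorem wt1_nonneg {k : Fin 5} {c : ℝ} {q : C6} {d x : ℂ} (h : 0 ≤ yl c d) :
    0 ≤ wt1 k c q d x := by
  unfold wt1
  positivity

/-- near marks have comparable weights -/
theorem wt1_near {k : Fin 5} {c : ℝ} {q : C6} {d : ℂ} {P Q : ℂ × ℂ} {ρ : ℝ} (h : 0 ≤ yl c d)
    (hρ : ρ ≤ 1 / 256) (hP : Pt (bd k q d) P) (hN : Nr ρ (bd k q d) P Q) :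
    wt1 k c q d Q.1 ≤ 2 * wt1 k c q d P.1 := by
  have h1 := H865.norm_sub_of_nr hρ hP hN k.succ
  have h2 := H865.norm_sub_of_nr hρ hP hN k.castSucc
  rw [H865.bd_succ] at h1
  rw [H865.bd_castSucc] at h2
  have e1 : P.1 - (q k.castSucc + d) = P.1 - q k.castSucc - d := by ring
  have e2 : P.1 - (q k.castSucc - d) = P.1 - q k.castSucc + d := by ring
  rw [e1] at h1
  rw [e2] at h2
  have e3 : Q.1 - q k.castSucc - d = (P.1 - q k.castSucc - d) - (P.1 - Q.1) := by ring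
  have e4 : Q.1 - q k.castSucc + d = (P.1 - q k.castSucc + d) - (P.1 - Q.1) := by ring
  have h3 := norm_sub_le (P.1 - q k.castSucc - d) (P.1 - Q.1)
  have h4 := norm_sub_le (P.1 - q k.castSucc + d) (P.1 - Q.1)
  rw [← e3] at h3
  rw [← e4] at h4
  have h5 : 0 ≤ (yl c d)⁻¹ := inv_nonneg.2 h
  have h6 := norm_nonneg (P.1 - q k.castSucc - d)
  have h7 := norm_nonneg (P.1 - q k.castSucc + d)
  unfold wt1
  linarith

/-- **the leg of the gauge from data of near active marks**, one weight for every mark -/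
theorem near_bound_w {X : Type} [NormedAddCommGroup X] [NormedSpace ℝ X] {O : One} {k : Fin 5}
    {S : L → Bool} {t : Bool} {φ : X → E} {σ : X → L → ℂ} {p : X} (hBr : Brd S φ σ p) {q : C6}
    {dd : ℂ} (hroots : (φ p).1 = bd k q dd) {r ρR : ℝ} (hr : 0 < r) (hR : 0 < ρR)
    (hb0 : ‖bd k q dd 0‖ ≤ ρR)
    (hzz : ∀ i : Fin 7, (∀ᶠ z in 𝓝 p, ∀ ξ, IsCl ξ →
        gfun (cX S t φ σ p) (pX O ξ S t φ σ p) i z = 0) ∨
      (H973.fin S t (φ p) i ∧ ActP (29 / 256) (29 / 32 * r) (35 / 32 * ρR) k q dd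
        (PX S t φ σ p i).1))
    {ξ : Fin 6 → ℝ} (hξ : IsCl ξ) {w : X} {W B K : ℝ} {A : ℂ → ℝ} (hA0 : ∀ x, 0 ≤ A x)
    (hW : 0 ≤ W) (hB : 0 ≤ B) (hK : 1 ≤ K)
    (hdel : ∀ (P Q : ℂ × ℂ) (ρ : ℝ), Pt (bd k q dd) P → 0 < ρ → ρ ≤ 1 / 256 →
      Nr ρ (bd k q dd) P Q → |del (etx O ξ) (bd k q dd) P Q| ≤ A P.1 ∧ A Q.1 ≤ K * A P.1)
    (hpair : ∀ i l : Fin 7, H973.fin S t (φ p) i → H973.fin S t (φ p) l →
      Nr (rad i) (φ p).1 (PX S t φ σ p i) (PX S t φ σ p l) →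
      ActP (1 / 10) (r / 2) (2 * ρR) k q dd (PX S t φ σ p i).1 →
      ActP (1 / 10) (r / 2) (2 * ρR) k q dd (PX S t φ σ p l).1 →
      ∃ (ζ : ℂ) (ρ : ℝ), 0 ≤ ρ ∧ Kn 7 * (ρ * A (PX S t φ σ p i).1) ≤ W ∧
        LogN (fun q => (φ q).1) (fun q => PX S t φ σ q i) p w ζ ρ ∧
        LogN (fun q => (φ q).1) (fun q => PX S t φ σ q l) p w ζ ρ)
    (hleg : ∀ i : Fin 7, |O.η ξ (S (i, t)) (prj (i, t) (φ p)) (σ p (i, t))
      (prj (i, t) (fderiv ℝ φ p w))| ≤ B) (j : Fin 7) :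
    |th O (j, t) ξ S (φ p) (σ p) (fderiv ℝ φ p w)| ≤ (1 + CW K) * (W + 2 * B) := by
  have hw0 : 0 ≤ W + 2 * B := by positivity
  have hK7 := H578.Kn_pos 7
  refine leg_bound_w (t := t) hBr O hξ (v := w) (w := fun i => A (PX S t φ σ p i).1)
    (w' := fun _ => W + 2 * B) (K := K) (fun _ => hA0 _) (fun _ => hw0) hK ?_ j (B := 1) ?_
  · intro i
    rcases hzz i with h | ⟨hfi, hact⟩
    · exact Or.inl (h.mono fun z hz => hz ξ hξ)
    right
    intro l hli _ hfl hN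
    have hPi : Pt (bd k q dd) (PX S t φ σ p i) := by
      have := hBr.pt_self (t := t) hfi
      rwa [hroots] at this
    have hN' := hN
    rw [hroots] at hN'
    have hal := hact.near (rad_le i) hb0 hPi hN'
    have hai : ActP (1 / 10) (r / 2) (2 * ρR) k q dd (PX S t φ σ p i).1 := by
      have := norm_nonneg dd
      refine ⟨?_, ?_, fun l' h1 h2 => ?_, ?_⟩
      · exact le_trans (by linarith) hact.a1
      · exact le_trans (by linarith) hact.a2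
      · exact le_trans (by linarith) (hact.oth l' h1 h2)
      · exact hact.far.trans (by linarith)
    obtain ⟨ζ, ρ, hρ0, hρ1, hl1, hl2⟩ := hpair i l hfi hfl hN hai hal
    have hcX : |fderiv ℝ (cX S t φ σ p i l) p w| ≤ Kn 7 * ρ :=
      H578.abs_fderiv_chiT_le (a := H973.fin S t (φ p)) (b := fun q => (φ q).1)
        (P := PX S t φ σ) (n := 7) hBr.contDiffAt_b
        (fun _ hm => hBr.contDiffAt_PX hm) (fun _ hm => hBr.pt_self hm) hρ0
        (fun _ _ _ => ⟨hl1, hl2⟩)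
    have e3 : ∀ m : Fin 7, H973.fin S t (φ p) m →
        |H578.pb (etx O ξ) (fun q => (φ q).1) (fun q => PX S t φ σ q m) p w| ≤ B := by
      intro m hm
      rw [hBr.pb_eq O hξ hm]
      exact hleg m
    have hdl := hdel _ _ _ hPi (rad_pos i) (rad_le i) hN'
    refine ⟨?_, ?_, ?_, hdl.2, ?_⟩
    · rw [hroots]
      exact hdl.1
    · calc |fderiv ℝ (cX S t φ σ p i l) p w| * A (PX S t φ σ p i).1
          ≤ Kn 7 * ρ * A (PX S t φ σ p i).1 := mul_le_mul_of_nonneg_right hcX (hA0 _)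
        _ = Kn 7 * (ρ * A (PX S t φ σ p i).1) := by ring
        _ ≤ W := hρ1
        _ ≤ W + 2 * B := by linarith
    · refine (abs_sub _ _).trans ?_
      have h1 := e3 i hfi
      have h2 := e3 l hfl
      linarith
    · exact le_mul_of_one_le_left hw0 hK
  · refine (hleg j).trans ?_
    linarith

/-- the clause `t1`, with the quantifiers of helper865's `T02` -/
def T1E (O : One) : Prop := ∀ k : Fin 5, ∀ q₀ ∈ H828.XD k, ∃ U ∈ 𝓝 q₀, ∃ c₀ > 0,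
  ∀ c, 0 < c → c ≤ c₀ → ∃ R₁ > 0, ∀ R₀ ≥ R₁, ∃ M₀ B : ℝ, 0 < M₀ ∧ 0 < B ∧
  ∀ (R : Region1) (m : Fin (R.n + 1)) (S : L → Bool) (p : Co1 R m) (g : ℂ) (v : L → ℂ),
    InReg k (U ∩ H828.XD k) c R₀ M₀ S p g v → ∀ (j : L) (d : Dir1 R m),
    ∀ ξ : Fin 6 → ℝ, IsCl ξ → ξ k.castSucc = ξ k.succ →
      |th O j ξ S (toE k c p) (R.sht (toSp c p) g v) (fderiv ℝ (toE k c) p (evec p d))| ≤
        B * ‖ξ‖ * H879.cst p d

theorem t1_of {O : One} (hO : OneAsy O) : T1E O := by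
  intro k q₀ hq₀
  obtain ⟨U1, hU1o, hU1, r, hr, ρR, hρR, hbd, hz⟩ := zones O hO.root hO.pair hO.far k hq₀
  obtain ⟨U2, hU2, c2, hc2, hP⟩ := pairM k hq₀
  obtain ⟨U3, hU3, c3, hc3, hL⟩ := etaLegs_of hO.neck hO.core k q₀ hq₀
  obtain ⟨U4, hU4, c4, hc4, hD⟩ := H732.V1.delO_of hO.neck hO.core hO.far k q₀ hq₀
  obtain ⟨U5, hU5, δ, hδ, hmem⟩ := exists_bd_mem k hq₀
  obtain ⟨U6, hU6, c6, hc6, hB⟩ := H357.brd_one k hq₀
  refine ⟨U1 ∩ U2 ∩ (U3 ∩ U4) ∩ (U5 ∩ U6), inter_mem (inter_mem (inter_mem (hU1o.mem_nhds hU1) hU2)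
    (inter_mem hU3 hU4)) (inter_mem hU5 hU6), min (min c2 c3) (min c4 (min c6 1)),
    lt_min (lt_min hc2 hc3) (lt_min hc4 (lt_min hc6 one_pos)), fun c hc hcc => ?_⟩
  have hcc2 : c ≤ c2 := hcc.trans ((min_le_left _ _).trans (min_le_left _ _))
  have hcc3 : c ≤ c3 := hcc.trans ((min_le_left _ _).trans (min_le_right _ _))
  have hcc4 : c ≤ c4 := hcc.trans ((min_le_right _ _).trans (min_le_left _ _))
  have hcc6 : c ≤ c6 :=
    hcc.trans ((min_le_right _ _).trans ((min_le_right _ _).trans (min_le_left _ _)))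
  obtain ⟨R2, hR2, hP⟩ := hP c hc hcc2
  obtain ⟨R3, hR3, hL⟩ := hL c hc hcc3
  obtain ⟨M4, B4, hM4, hB4, hD⟩ := hD c hc hcc4
  obtain ⟨M6, hM6, hB⟩ := hB c hc hcc6
  refine ⟨max R2 R3, lt_max_of_lt_left hR2, fun R₀ hR₀ => ?_⟩
  obtain ⟨M2, C, hM2, hC, hP⟩ := hP R₀ ((le_max_left _ _).trans hR₀) r ρR hr
  obtain ⟨M3, B3, hM3, hB3, hL⟩ := hL R₀ ((le_max_right _ _).trans hR₀)
  obtain ⟨M5, hM5⟩ := exists_len hc hr hδ
  obtain ⟨M, lM2, lM3, lM4, lM5, lM6, lM1⟩ : ∃ M : ℝ, M2 ≤ M ∧ M3 ≤ M ∧ M4 ≤ M ∧ M5 ≤ M ∧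
      M6 ≤ M ∧ 1 ≤ M := ⟨max (max M2 M3) (max (max M4 M5) (max M6 1)),
    (le_max_left _ _).trans (le_max_left _ _), (le_max_right _ _).trans (le_max_left _ _),
    (le_max_left _ _).trans ((le_max_left _ _).trans (le_max_right _ _)),
    (le_max_right _ _).trans ((le_max_left _ _).trans (le_max_right _ _)),
    (le_max_left _ _).trans ((le_max_right _ _).trans (le_max_right _ _)),
    (le_max_right _ _).trans ((le_max_right _ _).trans (le_max_right _ _))⟩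
  have hK7 := H578.Kn_pos 7
  have hCW := CW_nonneg (K := 2) one_le_two
  refine ⟨M, (1 + CW 2) * (Kn 7 * C * B4 + 2 * B3), by linarith, by positivity, ?_⟩
  intro R m S p g v hp j d ξ hξ h12
  have hy : 1 ≤ p.2.2.1 () := lM1.trans hp.y
  have hMM : c * Real.exp (-M / 2) < min r δ := by
    refine lt_of_le_of_lt ?_ hM5
    gcongr
  obtain ⟨hBr, hσ⟩ := hB M lM6 R₀ R m S p g v (H356.inReg_mono
    (K' := U6 ∩ H828.XD k) (fun q hq => ⟨hq.1.2.2, hq.2⟩) le_rfl hp)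
  have hL' := hL R m S p g v (H356.inReg_mono (K' := U3 ∩ H828.XD k)
    (fun q hq => ⟨hq.1.1.2.1, hq.2⟩) lM3 hp)
  have hA : Adm k (U1 ∩ U2 ∩ (U3 ∩ U4) ∩ (U5 ∩ U6)) c M (qb k p) (zh c p) :=
    adm_of hc (fun q hq => hmem q hq.2.1) (hMM.trans_le (min_le_right _ _)) le_rfl
      (fun q hq => hq) hp
  have hA4 : Adm k U4 c M4 (qb k p) (zh c p) :=
    { hA with qU := hA.qU.1.2.2, len := lM4.trans hA.len }
  have hyl : yl c (zh c p) = p.2.2.1 () := H828.yl_zh hc p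
  have hyl0 : 0 ≤ yl c (zh c p) := by rw [hyl]; linarith
  have hroots : (toE k c p).1 = bd k (qb k p) (zh c p) := toE_roots k c p
  have hP' := hP R m S p g v (H356.inReg_mono (K' := U2 ∩ H828.XD k)
    (fun q hq => ⟨hq.1.1.1.2, hq.2⟩) lM2 hp) (by rw [hroots]; exact hA.mem)
  have hzr : ‖zh c p‖ < r := by
    rw [H828.norm_zh hc]
    refine lt_of_le_of_lt ?_ (hMM.trans_le (min_le_left _ _))
    have := hp.y
    gcongr
  have hzz := fun t => hz (qb k p) hA.qU.1.1.1 hA.qX (zh c p) hzr hA.mem (Co1 R m) S t (toE k c)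
    _ p hBr hroots
  have hb0 : ‖bd k (qb k p) (zh c p) 0‖ ≤ ρR := hbd _ hA.qU.1.1.1 _ hzr 0
  have hcst := cst_nn hy d
  have hφ : DifferentiableAt ℝ (toE k c) p := hBr.smφ.differentiableAt (by simp)
  have h1 := near_bound_w hBr hroots hr hρR hb0 (hzz j.2) hξ (w := evec p d)
    (A := fun x => B4 * ‖ξ‖ * wt1 k c (qb k p) (zh c p) x)
    (W := Kn 7 * C * B4 * (‖ξ‖ * H879.cst p d)) (B := B3 * ‖ξ‖ * H879.cst p d) (K := 2)
    (fun x => mul_nonneg (by positivity) (wt1_nonneg hyl0)) (by positivity) (by positivity)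
    one_le_two (fun P Q ρ h1 h2 h3 h4 => ⟨(hD _ _ hA4 P Q ρ h1 h2 h3 h4 ξ hξ).2.1 h12, ?_⟩)
    ?_ ?_ j.1
  · rw [hσ] at h1
    refine h1.trans (le_of_eq ?_)
    ring
  · have h5 := wt1_near (c := c) hyl0 h3 h1 h4
    have h6 : 0 ≤ B4 * ‖ξ‖ := by positivity
    calc B4 * ‖ξ‖ * wt1 k c (qb k p) (zh c p) Q.1
        ≤ B4 * ‖ξ‖ * (2 * wt1 k c (qb k p) (zh c p) P.1) := mul_le_mul_of_nonneg_left h5 h6
      _ = 2 * (B4 * ‖ξ‖ * wt1 k c (qb k p) (zh c p) P.1) := by ring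
  · intro i l hi hl hN hai hal
    have h0 : ∀ n, PX S j.2 (toE k c) (H357.sg1 R S c p g v) p n =
        PP S j.2 (toE k c p) (R.sht (toSp c p) g v) n := by
      intro n
      rw [← hσ]
      rfl
    rw [h0] at hai hal hN
    rw [h0] at hN
    obtain ⟨-, -, ζ, ρ, a1, a2, a3, a4⟩ := hP' j.2 i l hi hl hN hai hal d
    refine ⟨ζ, ρ, a1, ?_, (logN_iff_xl hφ hi _ _ _).2 a2, (logN_iff_xl hφ hl _ _ _).2 a3⟩
    rw [h0]
    have h5 : ρ * wt1 k c (qb k p) (zh c p)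
        (PP S j.2 (toE k c p) (R.sht (toSp c p) g v) i).1 ≤ C * cst p d := a4
    calc Kn 7 * (ρ * (B4 * ‖ξ‖ * wt1 k c (qb k p) (zh c p)
          (PP S j.2 (toE k c p) (R.sht (toSp c p) g v) i).1))
        = Kn 7 * (B4 * ‖ξ‖) * (ρ * wt1 k c (qb k p) (zh c p)
          (PP S j.2 (toE k c p) (R.sht (toSp c p) g v) i).1) := by ring
      _ ≤ Kn 7 * (B4 * ‖ξ‖) * (C * cst p d) :=
          mul_le_mul_of_nonneg_left h5 (by positivity)
      _ = Kn 7 * C * B4 * (‖ξ‖ * H879.cst p d) := by ring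
  · intro i
    rw [hσ]
    exact ((hL' (i, j.2) d).1 ξ hξ).2 h12

/-- **the clause `t1`** -/
theorem clT1 (O : One) (h : OneAsy O) : ∀ k, ∀ q₀ ∈ H828.XD k, NearQ k q₀ (ClT1 O k) := by
  intro k q₀ hq₀
  obtain ⟨U, hU, c₀, hc₀, h⟩ := t1_of h k q₀ hq₀
  refine ⟨U, hU, c₀, hc₀, fun c hc hcc => ?_⟩
  obtain ⟨R₁, hR₁, h⟩ := h c hc hcc
  refine ⟨R₁, hR₁, fun R₀ hR₀ => ?_⟩
  obtain ⟨M₀, B, hM₀, hB, h⟩ := h R₀ hR₀
  exact ⟨M₀, B, 1, hM₀, hB, one_pos, fun R m S p g v hp j ξ d hξ h12 =>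
    h R m S p g v hp j d ξ hξ h12⟩

end Vale.Agent.P273.H668
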